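import Vale.Agent.P090.Counting

/-!
The central contradiction: no finitely supported approximation exists on one component.
-/

namespace Vale.Agent.P090

open scoped Classical
open Finset

noncomputable section

namespace Par

variable (P : Par)

/-- A finitely supported approximation of the identity on base points, of Lipschitz size `Λ`. -/
structure Approx (Λ : ℝ) where
  /-- the support -/
  G : Finset P.Vtx
  /-- the coefficients -/
  coef : P.Vtx → P.Vtx → ℝ
  edge : ∀ z w, P.Edge z w → ∀ (f : P.Vtx → ℝ) (C : ℝ), 0 < C → P.Good f C →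
    |∑ u ∈ G, coef w u * f u - ∑ u ∈ G, coef z u * f u| ≤ 2 * Λ * C
  pin : ∀ i a b (f : P.Vtx → ℝ) (C : ℝ), 0 < C → P.Good f C →
    |∑ u ∈ G, coef (P.lvl i a b) u * f u - f (P.base a)| ≤ 2 * Λ * P.ρ * C

variable {P} {Λ : ℝ} (A : P.Approx Λ)

/-- Pairing with the approximation at a point. -/
def Approx.ev (z : P.Vtx) (f : P.Vtx → ℝ) : ℝ := ∑ u ∈ A.G, A.coef z u * f u

theorem rho_div_R : (P.ρ : ℝ) / P.R ≤ 1 / P.ρ := by
  rw [div_le_div_iff₀ P.R_pos P.ρ_pos, one_mul, ← sq]
  exact_mod_cast P.sq_le_R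

theorem one_div_R : 1 / (P.R : ℝ) ≤ 1 / P.ρ :=
  one_div_le_one_div_of_le P.ρ_pos (by exact_mod_cast P.ρ_le_R)

theorem Approx.shift (hΛ : 1 ≤ Λ) {i i' : ℕ} {a a' : P.Base} {b : P.Fib i} {b' : P.Fib i'}
    (h : P.Edge (P.lvl i a b) (P.lvl i' a' b'))
    (hd : ∀ c, P.bdist a' c ≤ P.bdist a c + 1 ∧ P.bdist a c ≤ P.bdist a' c + 1)
    {v v' : P.Vtx → ℝ} (hv : ∀ z, |v z| ≤ 1) (hv' : P.Inv a' v')
    (heq : ∀ z, P.Near a (P.proj z) → P.Near a' (P.proj z) → v' z = v z) :
    |A.ev (P.lvl i' a' b') (P.test a' v') - A.ev (P.lvl i a b) (P.test a v)| ≤ 9 * Λ / P.ρ := by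
  have hρ := P.ρ_pos
  have hR := P.R_pos
  have hg : ∀ z, |P.test a' v' z - P.test a v z| ≤ 1 / P.R := fun z =>
    P.test_diff (hd (P.proj z)) hv hv'.1 (heq z)
  have e1 := A.edge _ _ h (P.test a' v') (2 / P.ρ) (by positivity) (P.good_test hv')
  have e2 := A.pin i a b (fun z => P.test a' v' z - P.test a v z) (2 / P.R) (by positivity)
    (P.good_small hg)
  simp only [mul_sub, Finset.sum_sub_distrib] at e2
  simp only [Approx.ev]
  have h0 := hg (P.base a)
  rw [abs_le] at e1 e2 h0 ⊢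
  have k1 : 2 * Λ * (2 / (P.ρ : ℝ)) = 4 * (Λ / P.ρ) := by ring
  have k2 : 2 * Λ * (P.ρ : ℝ) * (2 / P.R) ≤ 4 * (Λ / P.ρ) := by
    calc 2 * Λ * (P.ρ : ℝ) * (2 / P.R) = 4 * Λ * ((P.ρ : ℝ) / P.R) := by ring
      _ ≤ 4 * Λ * (1 / P.ρ) := mul_le_mul_of_nonneg_left rho_div_R (by linarith)
      _ = _ := by ring
  have k3 : 1 / (P.R : ℝ) ≤ Λ / P.ρ :=
    one_div_R.trans (by gcongr)
  have k4 : 9 * Λ / (P.ρ : ℝ) = 9 * (Λ / P.ρ) := by ring
  constructor <;> linarith [e1.1, e1.2, e2.1, e2.2, h0.1, h0.2]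

theorem Approx.bound (hΛ : 1 ≤ Λ) (i : ℕ) (a : P.Base) (b : P.Fib i) {v : P.Vtx → ℝ}
    (hv : P.Inv a v) : |A.ev (P.lvl i a b) (P.test a v)| ≤ 5 * Λ := by
  have hρ := P.ρ_pos
  have e := A.pin i a b (P.test a v) (2 / P.ρ) (by positivity) (P.good_test hv)
  have k : 2 * Λ * (P.ρ : ℝ) * (2 / P.ρ) = 4 * Λ := by field_simp; ring
  rw [k] at e
  have h0 := (P.test_abs_le a hv.1 (P.base a)).trans (P.psi_le_one a _)
  simp only [Approx.ev]
  rw [abs_le] at e h0 ⊢
  constructor <;> linarith [e.1, e.2, h0.1, h0.2]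

theorem Approx.mass (hΛ : 1 ≤ Λ) (i : ℕ) (a : P.Base) (b : P.Fib i) :
    1 - 2 * Λ / P.ρ ≤ A.ev (P.lvl i a b) (P.psi a) := by
  have hR := P.R_pos
  have e := A.pin i a b (P.psi a) (1 / P.R) (by positivity) (P.good_psi a)
  have h1 : P.psi a (P.base a) = 1 := by simp [psi, proj, P.bdist_self a]
  rw [h1, abs_le] at e
  have k : 2 * Λ * (P.ρ : ℝ) * (1 / P.R) ≤ 2 * Λ / P.ρ := by
    calc 2 * Λ * (P.ρ : ℝ) * (1 / P.R) = 2 * Λ * ((P.ρ : ℝ) / P.R) := by ring
      _ ≤ 2 * Λ * (1 / P.ρ) := mul_le_mul_of_nonneg_left rho_div_R (by linarith)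
      _ = _ := by ring
  simp only [Approx.ev]
  linarith [e.1]

theorem Approx.ev_test_sum {ι : Type} (s : Finset ι) (c : ι → ℝ) (a : P.Base)
    (v : ι → P.Vtx → ℝ) (z : P.Vtx) :
    A.ev z (P.test a (fun u => ∑ k ∈ s, c k * v k u))
      = ∑ k ∈ s, c k * A.ev z (P.test a (v k)) := by
  simp only [Approx.ev, test, Finset.mul_sum]
  rw [Finset.sum_comm]
  refine Finset.sum_congr rfl fun k _ => Finset.sum_congr rfl fun u _ => ?_
  ring

/-- An index bound for the support. -/
def Approx.top : ℕ := A.G.sup fun u => match u with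
  | Sum.inl _ => 0
  | Sum.inr x => x.1 + 1

theorem Approx.lt_top {i : ℕ} {a : P.Base} {b : P.Fib i} (h : P.lvl i a b ∈ A.G) : i < A.top :=
  Finset.le_sup (f := fun u : P.Vtx => match u with
    | Sum.inl _ => 0
    | Sum.inr x => x.1 + 1) h

/-- Indicator of one fibre point. -/
def single (i : ℕ) (β : P.Fib i) (y : Σ j, P.Fib j) : ℝ := if y = ⟨i, β⟩ then 1 else 0

theorem single_abs_le (i : ℕ) (β : P.Fib i) (y : Σ j, P.Fib j) : |single i β y| ≤ 1 := by
  simp only [single]; split_ifs <;> simp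

theorem lvlFun_split (n : ℕ) (σ : (Σ j, P.Fib j) → ℝ) (a : P.Base) (z : P.Vtx) :
    P.lvlFun n σ a z
      = ∑ k ∈ (range n).sigma (fun i => (univ : Finset (P.Fib i))),
          σ k * P.lvlFun n (single k.1 k.2) a z := by
  rcases z with c | ⟨i, c, b⟩
  · simp [lvlFun]
  · simp only [lvlFun, single]
    by_cases hi : i < n
    · simp only [if_pos hi, Sigma.eta, mul_ite, mul_one, mul_zero]
      rw [Finset.sum_ite_eq]
      simp [hi]
    · simp [hi]

/-- The correlation of a fibre point with the approximation. -/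
def Approx.mu (n i : ℕ) (β : P.Fib i) (a : P.Base) (b : P.Fib n) : ℝ :=
  A.ev (P.lvl n a b) (P.test a (P.lvlFun A.top (single i β) a))

theorem Approx.ev_lvlFun (σ : (Σ j, P.Fib j) → ℝ) (a : P.Base) (n : ℕ) (b : P.Fib n) :
    A.ev (P.lvl n a b) (P.test a (P.lvlFun A.top σ a))
      = ∑ i ∈ range A.top, ∑ β : P.Fib i, σ ⟨i, β⟩ * A.mu n i β a b := by
  have e : P.lvlFun A.top σ a = fun z => ∑ k ∈ (range A.top).sigma (fun i => (univ : Finset (P.Fib i))),
      σ k * P.lvlFun A.top (single k.1 k.2) a z := funext (lvlFun_split A.top σ a)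
  rw [e, A.ev_test_sum, Finset.sum_sigma]
  rfl

theorem Approx.variation (hΛ : 1 ≤ Λ) (n : ℕ) (a : P.Base) (b : P.Fib n) (s : Fin 4) :
    ∑ i ∈ range A.top, ∑ β : P.Fib i,
      |A.mu n i (affMap s β) (P.sMove s a) (affMap s b) - A.mu n i β a b| ≤ 9 * Λ / P.ρ := by
  set ε : (Σ j, P.Fib j) → ℝ := fun y =>
    if 0 ≤ A.mu n y.1 (affMap s y.2) (P.sMove s a) (affMap s b) - A.mu n y.1 y.2 a b then 1 else -1
    with hε
  set ε' : (Σ j, P.Fib j) → ℝ := fun y => ε ⟨y.1, affInv s y.2⟩ with hε'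
  have hb : ∀ y, |ε y| ≤ 1 := fun y => by simp only [hε]; split_ifs <;> simp
  have h := A.shift hΛ (i := n) (i' := n) (a := a) (a' := P.sMove s a) (b := b) (b' := affMap s b)
    (Or.inl ⟨n, a, b, s, rfl, rfl⟩) (fun c => P.bdist_obs a c s)
    (v := P.lvlFun A.top ε a) (v' := P.lvlFun A.top ε' (P.sMove s a))
    (P.lvlFun_inv A.top hb a).1 (P.lvlFun_inv A.top (fun y => hb _) _)
    (fun z hz _ => by
      rcases z with c | ⟨i, c, b'⟩
      · rfl
      · have hz' : P.Near a c := hz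
        simp only [lvlFun, hε', P.back_obs hz']
        congr 2
        exact Sigma.ext rfl (heq_of_eq ((affPerm (ZMod (P.p i)) s).left_inv _)))
  rw [A.ev_lvlFun, A.ev_lvlFun, ← Finset.sum_sub_distrib] at h
  refine le_trans (le_of_eq ?_) ((le_abs_self _).trans h)
  refine Finset.sum_congr rfl fun i _ => ?_
  rw [← Equiv.sum_comp (affPerm (ZMod (P.p i)) s)
    (fun β => ε' ⟨i, β⟩ * A.mu n i β (P.sMove s a) (affMap s b)), ← Finset.sum_sub_distrib]
  refine Finset.sum_congr rfl fun β _ => ?_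
  have hinv : affInv s (affMap s β) = β := (affPerm (ZMod (P.p i)) s).left_inv β
  simp only [hε', affPerm_apply, hinv, ← mul_sub]
  simp only [hε]
  split_ifs with h0
  · rw [abs_of_nonneg h0, one_mul]
  · rw [abs_of_neg (not_le.mp h0)]; ring

theorem Approx.middle (hΛ : 1 ≤ Λ) :
    |∑ a : P.Base, ∑ b : P.Fib A.top, P.present A.top b *
      A.ev (P.lvl A.top a b)
        (P.test a (P.lvlFun A.top (fun y => P.holeInd y.1 y.2 - P.dens y.1) a))|
      ≤ 1640 * 4 * (9 * Λ / P.ρ) * (Fintype.card P.Base * Fintype.card (P.Fib A.top)) := by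
  set n := A.top with hn
  have e : ∑ a : P.Base, ∑ b : P.Fib n, P.present n b *
      A.ev (P.lvl n a b) (P.test a (P.lvlFun A.top (fun y => P.holeInd y.1 y.2 - P.dens y.1) a))
      = ∑ i ∈ range n, ∑ a : P.Base, ∑ b : P.Fib n, ∑ β : P.Fib i,
          A.mu n i β a b * (P.present n b * (P.holeInd i β - P.dens i)) := by
    rw [eq_comm, Finset.sum_comm]
    refine Finset.sum_congr rfl fun a _ => ?_
    rw [Finset.sum_comm]
    refine Finset.sum_congr rfl fun b _ => ?_
    rw [A.ev_lvlFun, Finset.mul_sum]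
    refine Finset.sum_congr rfl fun i _ => ?_
    rw [Finset.mul_sum]
    exact Finset.sum_congr rfl fun β _ => by ring
  rw [e]
  calc _ ≤ ∑ i ∈ range n, |∑ a : P.Base, ∑ b : P.Fib n, ∑ β : P.Fib i,
          A.mu n i β a b * (P.present n b * (P.holeInd i β - P.dens i))| :=
        Finset.abs_sum_le_sum_abs _ _
    _ ≤ ∑ i ∈ range n, 1640 * ∑ s, ∑ a, ∑ b, ∑ β : P.Fib i,
          |A.mu n i (affMap s β) (P.sMove s a) (affMap s b) - A.mu n i β a b| := by
        refine Finset.sum_le_sum fun i hi => ?_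
        exact P.pair_poincare (Nat.ne_of_gt (Finset.mem_range.mp hi)) (fun a b β => A.mu n i β a b)
          _ _ (fun b => by rw [abs_of_nonneg (P.present_nonneg n b)]; exact P.present_le_one n b)
          (P.holeInd_sub_dens_abs i) (P.holeInd_centered i)
    _ = 1640 * ∑ s : Fin 4, ∑ a, ∑ b, ∑ i ∈ range n, ∑ β : P.Fib i,
          |A.mu n i (affMap s β) (P.sMove s a) (affMap s b) - A.mu n i β a b| := by
        rw [← Finset.mul_sum, Finset.sum_comm]
        congr 1
        refine Finset.sum_congr rfl fun s _ => ?_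
        rw [Finset.sum_comm]
        exact Finset.sum_congr rfl fun a _ => Finset.sum_comm
    _ ≤ 1640 * ∑ _s : Fin 4, ∑ _a : P.Base, ∑ _b : P.Fib n, 9 * Λ / (P.ρ : ℝ) := by
        refine mul_le_mul_of_nonneg_left ?_ (by norm_num)
        exact Finset.sum_le_sum fun s _ => Finset.sum_le_sum fun a _ => Finset.sum_le_sum
          fun b _ => A.variation hΛ n a b s
    _ = _ := by simp only [Finset.sum_const, Finset.card_univ, nsmul_eq_mul, Fintype.card_fin]; ring

/-- Tree steps as permutations of the base. -/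
def tEquiv (j : Fin P.J) : P.Base ≃ P.Base where
  toFun := P.tMove j
  invFun a := (a.1, a.2 * (treeHom P.Lab P.L (FreeGroup.of (a.1, j)))⁻¹)
  left_inv a := Prod.ext rfl (mul_inv_cancel_right a.2 _)
  right_inv a := Prod.ext rfl (inv_mul_cancel_right a.2 _)

theorem Approx.tree (hΛ : 1 ≤ Λ) (n : ℕ) :
    (P.J : ℝ) * ∑ a : P.Base, ∑ b : P.Fib n, P.present n b *
        A.ev (P.lvl n a b) (P.test a (P.weight A.top a))
      ≤ (10 * Λ + P.J * (9 * Λ / P.ρ)) * ∑ _a : P.Base, ∑ b : P.Fib n, P.present n b := by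
  set m := A.top
  have step : ∀ (j : Fin P.J) (a : P.Base) (b : P.Fib n),
      P.present n b * A.ev (P.lvl n a b) (P.test a (P.weight m a))
        ≤ P.present n b * (A.ev (P.lvl n a b) (P.test a (P.branch m false j a))
          + A.ev (P.lvl n (P.tMove j a) b) (P.test (P.tMove j a) (P.branch m true j (P.tMove j a)))
          + 9 * Λ / P.ρ) := by
    intro j a b
    by_cases hb : P.Hole n b
    · simp [present, holeInd, hb]
    refine mul_le_mul_of_nonneg_left ?_ (P.present_nonneg n b)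
    have h := A.shift hΛ (i := n) (i' := n) (a := a) (a' := P.tMove j a) (b := b) (b' := b)
      (Or.inr ⟨n, a, b, j, hb, rfl, rfl⟩) (fun c => P.bdist_tobs a c j)
      (v := fun z => P.weight m a z - P.branch m false j a z)
      (v' := P.branch m true j (P.tMove j a))
      (fun z => by
        simp only [branch]
        split_ifs
        · simp
        · simpa using P.weight_abs_le m a z)
      (P.branch_inv m true j _) (fun z hz _ => P.branch_split m j hz)
    have hlin : A.ev (P.lvl n a b) (P.test a (fun z => P.weight m a z - P.branch m false j a z))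
        = A.ev (P.lvl n a b) (P.test a (P.weight m a))
          - A.ev (P.lvl n a b) (P.test a (P.branch m false j a)) := by
      simp [Approx.ev, test, mul_sub, Finset.sum_sub_distrib]
    rw [hlin, abs_le] at h
    linarith [h.1, h.2]
  have hsum : ∀ (σ : Bool) (a : P.Base) (b : P.Fib n),
      ∑ j, A.ev (P.lvl n a b) (P.test a (P.branch m σ j a)) ≤ 5 * Λ := by
    intro σ a b
    have h := A.bound hΛ n a b (P.branches_inv m σ a)
    refine le_trans (le_of_eq ?_) ((le_abs_self _).trans h)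
    have := A.ev_test_sum (univ : Finset (Fin P.J)) (fun _ => 1) a (fun j => P.branch m σ j a)
      (P.lvl n a b)
    simp only [one_mul] at this
    exact this.symm
  calc (P.J : ℝ) * ∑ a : P.Base, ∑ b : P.Fib n, P.present n b *
        A.ev (P.lvl n a b) (P.test a (P.weight m a))
      = ∑ _j : Fin P.J, ∑ a : P.Base, ∑ b : P.Fib n, P.present n b *
        A.ev (P.lvl n a b) (P.test a (P.weight m a)) := by simp
    _ ≤ _ := Finset.sum_le_sum fun j _ => Finset.sum_le_sum fun a _ => Finset.sum_le_sum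
          fun b _ => step j a b
    _ = ∑ a : P.Base, ∑ b : P.Fib n, P.present n b *
          (∑ j, A.ev (P.lvl n a b) (P.test a (P.branch m false j a))
            + ∑ j, A.ev (P.lvl n a b) (P.test a (P.branch m true j a))
            + P.J * (9 * Λ / P.ρ)) := by
        simp only [mul_add, Finset.sum_add_distrib]
        congr 1
        · congr 1
          · rw [Finset.sum_comm]
            refine Finset.sum_congr rfl fun a _ => ?_
            rw [Finset.sum_comm]
            exact Finset.sum_congr rfl fun b _ => (Finset.mul_sum _ _ _).symm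
          · calc _ = ∑ j : Fin P.J, ∑ a : P.Base, ∑ b : P.Fib n,
                  P.present n b * A.ev (P.lvl n a b) (P.test a (P.branch m true j a)) := by
                  refine Finset.sum_congr rfl fun j _ => ?_
                  exact Equiv.sum_comp (tEquiv j) (fun a => ∑ b : P.Fib n,
                    P.present n b * A.ev (P.lvl n a b) (P.test a (P.branch m true j a)))
              _ = _ := by
                  rw [Finset.sum_comm]
                  refine Finset.sum_congr rfl fun a _ => ?_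
                  rw [Finset.sum_comm]
                  exact Finset.sum_congr rfl fun b _ => (Finset.mul_sum _ _ _).symm
        · rw [Finset.sum_const, Finset.card_univ, Fintype.card_fin, nsmul_eq_mul, Finset.mul_sum]
          refine Finset.sum_congr rfl fun a _ => ?_
          rw [Finset.mul_sum]
          exact Finset.sum_congr rfl fun b _ => by ring
    _ ≤ ∑ a : P.Base, ∑ b : P.Fib n, P.present n b * (10 * Λ + P.J * (9 * Λ / P.ρ)) := by
        refine Finset.sum_le_sum fun a _ => Finset.sum_le_sum fun b _ =>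
          mul_le_mul_of_nonneg_left ?_ (P.present_nonneg n b)
        linarith [hsum false a b, hsum true a b]
    _ = _ := by simp only [← Finset.sum_mul]; ring

theorem Approx.lower (hΛ : 1 ≤ Λ) (a : P.Base) (b : P.Fib A.top) :
    1 / 2 - 6 * Λ / P.ρ
        + A.ev (P.lvl A.top a b)
            (P.test a (P.lvlFun A.top (fun y => P.holeInd y.1 y.2 - P.dens y.1) a))
      ≤ A.ev (P.lvl A.top a b) (P.test a (P.weight A.top a)) := by
  have hρ := P.ρ_pos
  have hm := A.mass hΛ A.top a b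
  have hv := A.bound hΛ A.top a b
    (P.lvlFun_inv A.top (σ := fun y => (P.ρ : ℝ) * (P.dens y.1 - 1 / 2)) (fun y => P.dens_scaled y.1) a)
  have e : A.ev (P.lvl A.top a b) (P.test a (P.weight A.top a))
      = 1 / 2 * A.ev (P.lvl A.top a b) (P.psi a)
        + A.ev (P.lvl A.top a b)
            (P.test a (P.lvlFun A.top (fun y => P.holeInd y.1 y.2 - P.dens y.1) a))
        + 1 / (P.ρ : ℝ) * A.ev (P.lvl A.top a b)
            (P.test a (P.lvlFun A.top (fun y => (P.ρ : ℝ) * (P.dens y.1 - 1 / 2)) a)) := by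
    simp only [Approx.ev, Finset.mul_sum, ← Finset.sum_add_distrib]
    refine Finset.sum_congr rfl fun u hu => ?_
    rcases u with c | ⟨i, c, b'⟩
    · simp [test, weight, lvlFun]; ring
    · have hi : i < A.top := A.lt_top hu
      simp only [test, weight, lvlFun, hi, if_true, true_and, holeInd]
      field_simp
      ring
  rw [abs_le] at hv
  rw [e]
  have k1 : 1 / (P.ρ : ℝ) * (-(5 * Λ)) ≤ 1 / (P.ρ : ℝ) * A.ev (P.lvl A.top a b)
      (P.test a (P.lvlFun A.top (fun y => (P.ρ : ℝ) * (P.dens y.1 - 1 / 2)) a)) :=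
    mul_le_mul_of_nonneg_left hv.1 (by positivity)
  have k2 : 6 * Λ / (P.ρ : ℝ) = 5 * Λ * (1 / P.ρ) + Λ / P.ρ := by ring
  have k3 : 2 * Λ / (P.ρ : ℝ) = 2 * (Λ / P.ρ) := by ring
  nlinarith

/-- No approximation exists once `J` and `ρ` are large compared with `Λ`. -/
theorem no_approx (hΛ : 1 ≤ Λ) (hJ : 100 * Λ ≤ P.J) (hρ : 10000000 * Λ ≤ P.ρ)
    (A : P.Approx Λ) : False := by
  set n := A.top with hn
  set N := ∑ _a : P.Base, ∑ b : P.Fib n, P.present n b with hN
  set S := ∑ a : P.Base, ∑ b : P.Fib n, P.present n b *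
      A.ev (P.lvl n a b) (P.test a (P.weight A.top a)) with hS
  set Mid := ∑ a : P.Base, ∑ b : P.Fib n, P.present n b *
      A.ev (P.lvl n a b) (P.test a (P.lvlFun A.top (fun y => P.holeInd y.1 y.2 - P.dens y.1) a))
    with hMid
  set X : ℝ := Fintype.card P.Base * Fintype.card (P.Fib n) with hX
  have hXpos : 0 < X := by
    have h1 : (0 : ℝ) < Fintype.card P.Base := by exact_mod_cast Fintype.card_pos
    have h2 : (0 : ℝ) < Fintype.card (P.Fib n) := by exact_mod_cast Fintype.card_pos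
    positivity
  have hXN : X ≤ 2 * N := by
    rw [hN, Finset.sum_const, Finset.card_univ, nsmul_eq_mul, hX]
    have := P.present_sum n
    nlinarith [(Nat.cast_nonneg (Fintype.card P.Base) : (0 : ℝ) ≤ Fintype.card P.Base)]
  have hlow : (1 / 2 - 6 * Λ / P.ρ) * N + Mid ≤ S := by
    rw [hN, hMid, hS, Finset.mul_sum, ← Finset.sum_add_distrib]
    refine Finset.sum_le_sum fun a _ => ?_
    rw [Finset.mul_sum, ← Finset.sum_add_distrib]
    refine Finset.sum_le_sum fun b _ => ?_
    rw [mul_comm (1 / 2 - 6 * Λ / (P.ρ : ℝ)), ← mul_add]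
    exact mul_le_mul_of_nonneg_left (A.lower hΛ a b) (P.present_nonneg n b)
  have hmid : |Mid| ≤ 1640 * 4 * (9 * Λ / P.ρ) * X := A.middle hΛ
  have htree : (P.J : ℝ) * S ≤ (10 * Λ + P.J * (9 * Λ / P.ρ)) * N := A.tree hΛ n
  have hρ0 := P.ρ_pos
  have hlρ : Λ / P.ρ ≤ 1 / 10000000 := by
    rw [div_le_div_iff₀ hρ0 (by norm_num)]; linarith
  have hlρ0 : 0 ≤ Λ / (P.ρ : ℝ) := by positivity
  have e1 : 6 * Λ / (P.ρ : ℝ) = 6 * (Λ / P.ρ) := by ring
  have e2 : 9 * Λ / (P.ρ : ℝ) = 9 * (Λ / P.ρ) := by ring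
  rw [e1] at hlow
  rw [e2] at htree hmid
  rw [abs_le] at hmid
  have hNpos : 0 < N := by linarith
  have hS2 : (1 / 2 - 1 / 10) * N ≤ S := by
    have a1 : Λ / (P.ρ : ℝ) * X ≤ 1 / 10000000 * (2 * N) :=
      mul_le_mul hlρ hXN hXpos.le (by norm_num)
    have a2 : Λ / (P.ρ : ℝ) * N ≤ 1 / 10000000 * N := mul_le_mul_of_nonneg_right hlρ hNpos.le
    nlinarith [hmid.1]
  have hJ0 : (0 : ℝ) < P.J := by linarith
  have b1 : (P.J : ℝ) * ((1 / 2 - 1 / 10) * N) ≤ (P.J : ℝ) * S :=
    mul_le_mul_of_nonneg_left hS2 hJ0.le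
  have b2 : Λ * N ≤ (P.J : ℝ) / 100 * N := mul_le_mul_of_nonneg_right (by linarith) hNpos.le
  have b3 : (P.J : ℝ) * (Λ / P.ρ) * N ≤ (P.J : ℝ) * (1 / 10000000) * N :=
    mul_le_mul_of_nonneg_right (mul_le_mul_of_nonneg_left hlρ hJ0.le) hNpos.le
  nlinarith [mul_pos hJ0 hNpos]

end Par

end

end Vale.Agent.P090
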