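import Vale.Agent.P090.GabberGalil

/-!
An `ℓ¹` Poincaré inequality for finite fibred actions of the affine generators.
-/

namespace Vale.Agent.P090

open scoped BigOperators
open Finset

noncomputable section

theorem abs_normSq_sub_le (A B : ℂ) {t : ℝ} (ht : 0 < t) :
    |Complex.normSq A - Complex.normSq B|
      ≤ t * Complex.normSq (A - B) + (Complex.normSq A + Complex.normSq B) / (2 * t) := by
  simp only [Complex.normSq_eq_norm_sq]
  have h1 := abs_norm_sub_norm_le A B
  have key : |‖A‖ ^ 2 - ‖B‖ ^ 2| ≤ t * (‖A‖ - ‖B‖) ^ 2 + (‖A‖ ^ 2 + ‖B‖ ^ 2) / (2 * t) := by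
    have expand : (‖A‖ + ‖B‖) ^ 2 / (4 * t) ≤ (‖A‖ ^ 2 + ‖B‖ ^ 2) / (2 * t) := by
      rw [div_le_div_iff₀ (by positivity) (by positivity)]
      nlinarith [sq_nonneg (‖A‖ - ‖B‖)]
    have hfac : |‖A‖ ^ 2 - ‖B‖ ^ 2| = |‖A‖ - ‖B‖| * (‖A‖ + ‖B‖) := by
      rw [sq_sub_sq, abs_mul, abs_of_nonneg (add_nonneg (norm_nonneg A) (norm_nonneg B)), mul_comm]
    have amgm : |‖A‖ - ‖B‖| * (‖A‖ + ‖B‖)
        ≤ t * (‖A‖ - ‖B‖) ^ 2 + (‖A‖ + ‖B‖) ^ 2 / (4 * t) := by
      rw [← sq_abs (‖A‖ - ‖B‖)]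
      have : 0 ≤ (2 * t * |‖A‖ - ‖B‖| - (‖A‖ + ‖B‖)) ^ 2 / (4 * t) := by positivity
      have he : (2 * t * |‖A‖ - ‖B‖| - (‖A‖ + ‖B‖)) ^ 2 / (4 * t)
          = t * |‖A‖ - ‖B‖| ^ 2 - |‖A‖ - ‖B‖| * (‖A‖ + ‖B‖) + (‖A‖ + ‖B‖) ^ 2 / (4 * t) := by
        field_simp
        ring
      linarith
    linarith
  have h2 : (‖A‖ - ‖B‖) ^ 2 ≤ ‖A - B‖ ^ 2 := by
    rw [← sq_abs]
    exact pow_le_pow_left₀ (abs_nonneg _) h1 2
  nlinarith

section Torus

variable {N : ℕ} [NeZero N] {Λ : Type*} [Fintype Λ]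

theorem torus_variance (σ : Fin 4 → Equiv.Perm Λ) (h2 : σ 2 = 1) (h3 : σ 3 = 1)
    (φ : Λ → ZMod N × ZMod N → ℝ) :
    ∑ L, ∑ v, (φ L v - (∑ u, φ L u) / (N : ℝ) ^ 2) ^ 2
      ≤ 820 * ∑ s, ∑ L, ∑ v, (φ (σ s L) (affMap s v) - φ L v) ^ 2 := by
  classical
  set w : ZMod N × ZMod N → ℝ := fun ξ => if ξ = 0 then 0 else ∑ L, Complex.normSq (ft (φ L) ξ)
    with hwdef
  set D : Fin 4 → ℝ := fun s => ∑ L, ∑ v, (φ (σ s L) (affMap s v) - φ L v) ^ 2 with hD
  have hw : ∀ ξ, 0 ≤ w ξ := by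
    intro ξ
    simp only [hwdef]
    split_ifs
    · exact le_rfl
    · exact Finset.sum_nonneg fun L _ => Complex.normSq_nonneg _
  have hW : ∑ ξ, w ξ = (N : ℝ) ^ 2 * ∑ L, ∑ v, (φ L v - (∑ u, φ L u) / (N : ℝ) ^ 2) ^ 2 := by
    rw [Finset.mul_sum]
    simp only [variance_eq]
    rw [Finset.sum_comm, ← Finset.sum_erase univ (a := (0 : ZMod N × ZMod N)) (by simp [hwdef])]
    refine Finset.sum_congr rfl fun ξ hξ => ?_
    simp [hwdef, Finset.ne_of_mem_erase hξ]
  have hP : ∀ s, ∑ ξ, ∑ L, Complex.normSq (ft (fun v => φ (σ s L) (affMap s v)) ξ - ft (φ L) ξ)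
      = (N : ℝ) ^ 2 * D s := by
    intro s
    rw [Finset.sum_comm, hD, Finset.mul_sum]
    refine Finset.sum_congr rfl fun L _ => ?_
    simp only [← ft_sub, plancherel]
  have shear : ∀ (s : Fin 4) (U : ZMod N × ZMod N → ZMod N × ZMod N),
      (∀ f ξ, ft (fun v => f (affMap s v)) ξ = ft f (U ξ)) → (∀ ξ, U ξ = 0 ↔ ξ = 0) →
      Function.Injective U →
      ∀ S : Finset (ZMod N × ZMod N),
        ∑ ξ ∈ S, |w (U ξ) - w ξ| ≤ 28 * ((N : ℝ) ^ 2 * D s) + (∑ ξ, w ξ) / 28 := by
    intro s U hU hU0 hUi S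
    have pt : ∀ ξ, |w (U ξ) - w ξ| ≤
        28 * ∑ L, Complex.normSq (ft (fun v => φ (σ s L) (affMap s v)) ξ - ft (φ L) ξ)
          + (w (U ξ) + w ξ) / 56 := by
      intro ξ
      by_cases hξ : ξ = 0
      · subst hξ
        simp only [hwdef, (hU0 0).mpr rfl, if_true, sub_zero, abs_zero, add_zero, zero_div]
        exact mul_nonneg (by norm_num) (Finset.sum_nonneg fun L _ => Complex.normSq_nonneg _)
      · have hUξ : U ξ ≠ 0 := fun h => hξ ((hU0 ξ).mp h)
        simp only [hwdef, if_neg hξ, if_neg hUξ]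
        rw [← Equiv.sum_comp (σ s) (fun L => Complex.normSq (ft (φ L) (U ξ)))]
        simp only [← hU]
        rw [← Finset.sum_sub_distrib, ← Finset.sum_add_distrib, Finset.sum_div, Finset.mul_sum,
          ← Finset.sum_add_distrib]
        refine (Finset.abs_sum_le_sum_abs _ _).trans (Finset.sum_le_sum fun L _ => ?_)
        refine (abs_normSq_sub_le _ _ (show (0 : ℝ) < 28 by norm_num)).trans (le_of_eq ?_)
        norm_num
    calc ∑ ξ ∈ S, |w (U ξ) - w ξ|
        ≤ ∑ ξ, |w (U ξ) - w ξ| := Finset.sum_le_univ_sum_of_nonneg fun ξ => abs_nonneg _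
      _ ≤ _ := Finset.sum_le_sum fun ξ _ => pt ξ
      _ = 28 * ((N : ℝ) ^ 2 * D s) + (∑ ξ, w (U ξ) + ∑ ξ, w ξ) / 56 := by
        rw [Finset.sum_add_distrib, ← Finset.mul_sum, hP, ← Finset.sum_div, Finset.sum_add_distrib]
      _ = _ := by
        rw [(Finite.injective_iff_bijective.mp hUi).sum_comp w]
        ring
  have hn0 : (0 : ℝ) ≤ (N : ℝ) ^ 2 := by positivity
  have hDn : ∀ s, 0 ≤ D s := fun s => Finset.sum_nonneg fun L _ => Finset.sum_nonneg fun v _ => sq_nonneg _
  have sU := shear 0 (fun ξ => (ξ.1, ξ.2 - 2 * ξ.1)) (fun f ξ => shear1_sum f ξ)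
    (fun ξ => by
      constructor
      · intro h
        obtain ⟨a, b⟩ := ξ
        simp only [Prod.mk_eq_zero] at h ⊢
        obtain ⟨ha, hb⟩ := h
        subst ha
        simpa using hb
      · rintro rfl; simp)
    (Function.LeftInverse.injective (g := fun ξ => (ξ.1, ξ.2 + 2 * ξ.1)) fun ξ => by simp)
  have sV := shear 1 (fun ξ => (ξ.1 - 2 * ξ.2, ξ.2)) (fun f ξ => shear2_sum f ξ)
    (fun ξ => by
      constructor
      · intro h
        obtain ⟨a, b⟩ := ξ
        simp only [Prod.mk_eq_zero] at h ⊢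
        obtain ⟨ha, hb⟩ := h
        subst hb
        simpa using ha
      · rintro rfl; simp)
    (Function.LeftInverse.injective (g := fun ξ => (ξ.1 + 2 * ξ.2, ξ.2)) fun ξ => by simp)
  set δ := 28 * ((N : ℝ) ^ 2 * (D 0 + D 1)) + (∑ ξ, w ξ) / 28 with hδ
  have hfreq := freq_lemma hw δ
    (fun S => (sU S).trans (by rw [hδ]; nlinarith [hDn 1, mul_nonneg hn0 (hDn 1)]))
    (fun S => (sV S).trans (by rw [hδ]; nlinarith [hDn 0, mul_nonneg hn0 (hDn 0)]))
    (by simp [hwdef])
  have far : ∑ ξ ∈ univ.filter (fun ξ : ZMod N × ZMod N =>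
      (N : ℤ) < 8 * |ξ.1.valMinAbs| ∨ (N : ℤ) < 8 * |ξ.2.valMinAbs|), w ξ
      ≤ 2 * ((N : ℝ) ^ 2 * (D 2 + D 3)) := by
    calc _ ≤ ∑ ξ : ZMod N × ZMod N,
          2 * ∑ L, (Complex.normSq (ft (fun v => φ (σ 2 L) (affMap 2 v)) ξ - ft (φ L) ξ)
            + Complex.normSq (ft (fun v => φ (σ 3 L) (affMap 3 v)) ξ - ft (φ L) ξ)) := by
          rw [Finset.sum_filter]
          refine Finset.sum_le_sum fun ξ _ => ?_
          have hnn : ∀ L, (0:ℝ) ≤ Complex.normSq (ft (fun v => φ (σ 2 L) (affMap 2 v)) ξ - ft (φ L) ξ)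
            + Complex.normSq (ft (fun v => φ (σ 3 L) (affMap 3 v)) ξ - ft (φ L) ξ) :=
            fun L => add_nonneg (Complex.normSq_nonneg _) (Complex.normSq_nonneg _)
          have hsn := Finset.sum_nonneg (s := univ) fun L _ => hnn L
          split_ifs with h
          · have hξ : ξ ≠ 0 := by
              rintro rfl
              simp at h
              omega
            simp only [hwdef, if_neg hξ, Finset.mul_sum]
            refine Finset.sum_le_sum fun L _ => ?_
            simp only [h2, h3, Equiv.Perm.one_apply, transl1_sum, transl2_sum, ← sub_one_mul,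
              Complex.normSq_mul]
            have hF := Complex.normSq_nonneg (ft (φ L) ξ)
            have ha := Complex.normSq_nonneg ((ZMod.stdAddChar (-ξ.1) : ℂ) - 1)
            have hb := Complex.normSq_nonneg ((ZMod.stdAddChar (-ξ.2) : ℂ) - 1)
            rcases h with h | h
            · nlinarith [char_far h, mul_nonneg hb hF]
            · nlinarith [char_far h, mul_nonneg ha hF]
          · linarith
      _ = _ := by
          rw [← Finset.mul_sum]
          simp only [Finset.sum_add_distrib, hP]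
          ring
  have hW2 : ∑ ξ, w ξ ≤ 820 * ((N : ℝ) ^ 2 * ∑ s, D s) := by
    rw [Fin.sum_univ_four]
    nlinarith [mul_nonneg hn0 (hDn 0), mul_nonneg hn0 (hDn 1), mul_nonneg hn0 (hDn 2),
      mul_nonneg hn0 (hDn 3)]
  rw [hW] at hW2
  have hNpos : (0 : ℝ) < (N : ℝ) ^ 2 := by
    have : (0 : ℝ) < N := by exact_mod_cast Nat.pos_of_ne_zero (NeZero.ne N)
    positivity
  refine le_of_mul_le_mul_left ?_ hNpos
  calc _ ≤ _ := hW2
    _ = _ := by simp only [hD]; ring

/-- Indicator functions: mass correlation with a fibrewise mean-zero test is bounded by the cut. -/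
theorem torus_cut (σ : Fin 4 → Equiv.Perm Λ) (h2 : σ 2 = 1) (h3 : σ 3 = 1)
    (u τ : Λ → ZMod N × ZMod N → ℝ) (hu : ∀ L v, u L v = 0 ∨ u L v = 1)
    (hτ : ∀ L v, |τ L v| ≤ 1) (hτ0 : ∀ L, ∑ v, τ L v = 0) :
    |∑ L, ∑ v, u L v * τ L v| ≤ 1640 * ∑ s, ∑ L, ∑ v, |u (σ s L) (affMap s v) - u L v| := by
  have hNpos : (0 : ℝ) < (N : ℝ) ^ 2 := by
    have : (0 : ℝ) < N := by exact_mod_cast Nat.pos_of_ne_zero (NeZero.ne N)
    positivity
  have hfib : ∀ L, |∑ v, u L v * τ L v| ≤ 2 * ∑ v, (u L v - (∑ w, u L w) / (N : ℝ) ^ 2) ^ 2 := by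
    intro L
    set m := ∑ w, u L w with hm
    set α := m / (N : ℝ) ^ 2 with hα
    have e : ∑ v, u L v * τ L v = ∑ v, (u L v - α) * τ L v := by
      simp [sub_mul, Finset.sum_sub_distrib, ← Finset.mul_sum, hτ0 L]
    have hα0 : 0 ≤ α := by
      apply div_nonneg _ hNpos.le
      exact Finset.sum_nonneg fun v _ => by rcases hu L v with h | h <;> simp [h]
    have hcard : (Fintype.card (ZMod N × ZMod N) : ℝ) = (N : ℝ) ^ 2 := by
      simp [sq]
    have hα1 : α ≤ 1 := by
      rw [hα, div_le_one hNpos, ← hcard, hm]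
      calc ∑ v, u L v ≤ ∑ _v : ZMod N × ZMod N, (1 : ℝ) :=
            Finset.sum_le_sum fun v _ => by rcases hu L v with h | h <;> simp [h]
        _ = _ := by simp
    rw [e]
    calc |∑ v, (u L v - α) * τ L v| ≤ ∑ v, |(u L v - α) * τ L v| := Finset.abs_sum_le_sum_abs _ _
      _ ≤ ∑ v, |u L v - α| := Finset.sum_le_sum fun v _ => by
            rw [abs_mul]; exact mul_le_of_le_one_right (abs_nonneg _) (hτ L v)
      _ = ∑ v, (u L v + α - 2 * α * u L v) := Finset.sum_congr rfl fun v _ => by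
            rcases hu L v with h | h <;> simp [h]
            · exact hα0
            · rw [abs_of_nonneg (by linarith)]; ring
      _ = m + (N : ℝ) ^ 2 * α - 2 * α * m := by
            rw [Finset.sum_sub_distrib, Finset.sum_add_distrib, Finset.sum_const, Finset.card_univ,
              nsmul_eq_mul, hcard, ← Finset.mul_sum]
      _ = 2 * (m - 2 * α * m + (N : ℝ) ^ 2 * α ^ 2) := by
            have hN : (N : ℝ) ≠ 0 := by exact_mod_cast NeZero.ne N
            rw [hα]; field_simp; ring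
      _ = 2 * ∑ v, (u L v - α) ^ 2 := by
            have h' : ∀ v, (u L v - α) ^ 2 = u L v - 2 * α * u L v + α ^ 2 := fun v => by
              rcases hu L v with h | h <;> simp [h] <;> ring
            simp only [h']
            rw [Finset.sum_add_distrib, Finset.sum_sub_distrib, Finset.sum_const, Finset.card_univ,
              nsmul_eq_mul, hcard, ← Finset.mul_sum]
  have hsq : ∀ s L v, (u (σ s L) (affMap s v) - u L v) ^ 2 = |u (σ s L) (affMap s v) - u L v| := by
    intro s L v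
    rcases hu (σ s L) (affMap s v) with h | h <;> rcases hu L v with h' | h' <;> simp [h, h']
  have hv := torus_variance σ h2 h3 u
  simp only [hsq] at hv
  calc _ ≤ ∑ L, |∑ v, u L v * τ L v| := Finset.abs_sum_le_sum_abs _ _
    _ ≤ ∑ L, 2 * ∑ v, (u L v - (∑ w, u L w) / (N : ℝ) ^ 2) ^ 2 := Finset.sum_le_sum fun L _ => hfib L
    _ ≤ _ := by rw [← Finset.mul_sum]; linarith

end Torus

theorem abs_sub_min_add (c d x y : ℝ) (hcd : c ≤ d) (hx : x ≤ c ∨ x = d) (hy : y ≤ c ∨ y = d) :
    |min x c - min y c| + (d - c) * |(if c < x then (1 : ℝ) else 0) - (if c < y then 1 else 0)|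
      = |x - y| := by
  rcases eq_or_lt_of_le hcd with rfl | hlt
  · have h1 : x ≤ c := hx.elim id le_of_eq
    have h2 : y ≤ c := hy.elim id le_of_eq
    simp [min_eq_left h1, min_eq_left h2, not_lt.mpr h1, not_lt.mpr h2]
  rcases hx with hx | rfl <;> rcases hy with hy | rfl
  · simp [min_eq_left hx, min_eq_left hy, not_lt.mpr hx, not_lt.mpr hy]
  · rw [min_eq_left hx, min_eq_right hcd, if_neg (not_lt.mpr hx), if_pos hlt]
    rw [abs_of_nonpos (by linarith : x - c ≤ 0), abs_of_nonpos (by linarith : x - y ≤ 0)]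
    simp
  · rw [min_eq_left hy, min_eq_right hcd, if_neg (not_lt.mpr hy), if_pos hlt]
    rw [abs_of_nonneg (by linarith : 0 ≤ c - y), abs_of_nonneg (by linarith : 0 ≤ x - y)]
    simp
  · simp [hlt]

/-- Layer-cake reduction from indicator functions to real functions. -/
theorem layer_cake {X : Type*} [Fintype X] {ι : Type*} [Fintype ι] (π : ι → X → X) (τ : X → ℝ)
    (C : ℝ) (hτ : ∑ x, τ x = 0)
    (h : ∀ u : X → ℝ, (∀ x, u x = 0 ∨ u x = 1) →
      |∑ x, u x * τ x| ≤ C * ∑ i, ∑ x, |u (π i x) - u x|) (φ : X → ℝ) :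
    |∑ x, φ x * τ x| ≤ C * ∑ i, ∑ x, |φ (π i x) - φ x| := by
  classical
  suffices H : ∀ n, ∀ φ : X → ℝ, (univ.image φ).card ≤ n →
      |∑ x, φ x * τ x| ≤ C * ∑ i, ∑ x, |φ (π i x) - φ x| from H _ φ le_rfl
  intro n
  induction n with
  | zero =>
    intro φ hφ
    have : IsEmpty X := ⟨fun x => by
      have := Finset.card_pos.mpr ⟨φ x, Finset.mem_image_of_mem φ (Finset.mem_univ x)⟩
      omega⟩
    simp
  | succ n ih =>
    intro φ hφ
    rcases isEmpty_or_nonempty X with hX | hX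
    · simp
    set S := univ.image φ with hS
    have hne : S.Nonempty := univ_nonempty.image φ
    set d := S.max' hne with hd
    rcases (S.erase d).eq_empty_or_nonempty with he | he
    · have hc : ∀ x, φ x = d := fun x => by
        by_contra hcon
        have : φ x ∈ S.erase d := Finset.mem_erase.mpr ⟨hcon, Finset.mem_image_of_mem φ (Finset.mem_univ x)⟩
        simp [he] at this
      simp [hc, ← Finset.mul_sum, hτ]
    · set c := (S.erase d).max' he with hc
      have hcS : c ∈ S.erase d := Finset.max'_mem _ _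
      have hcd : c ≤ d := Finset.le_max' _ _ (Finset.mem_of_mem_erase hcS)
      have hval : ∀ x, φ x ≤ c ∨ φ x = d := fun x => by
        by_cases hx : φ x = d
        · exact Or.inr hx
        · exact Or.inl (Finset.le_max' _ _ (Finset.mem_erase.mpr
            ⟨hx, Finset.mem_image_of_mem φ (Finset.mem_univ x)⟩))
      set φ' : X → ℝ := fun x => min (φ x) c with hφ'
      set u : X → ℝ := fun x => if c < φ x then 1 else 0 with hu
      have hcard : (univ.image φ').card ≤ n := by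
        have hsub : univ.image φ' ⊆ S.erase d := by
          intro y hy
          obtain ⟨x, _, rfl⟩ := Finset.mem_image.mp hy
          simp only [hφ']
          rcases le_total (φ x) c with hx | hx
          · rw [min_eq_left hx]
            refine Finset.mem_erase.mpr ⟨?_, Finset.mem_image_of_mem φ (Finset.mem_univ x)⟩
            intro hxd
            exact (Finset.ne_of_mem_erase hcS) (le_antisymm hcd (hxd ▸ hx))
          · rw [min_eq_right hx]; exact hcS
        have h1 := Finset.card_le_card hsub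
        have h2 := Finset.card_erase_add_one (Finset.max'_mem S hne)
        rw [← hd] at h2
        omega
      have hdec : ∀ x, φ x = φ' x + (d - c) * u x := fun x => by
        simp only [hφ', hu]
        rcases hval x with hx | hx
        · simp [min_eq_left hx, not_lt.mpr hx]
        · rcases eq_or_lt_of_le hcd with e | e
          · simp [hx, e]
          · simp [hx, min_eq_right hcd, e]
      have hu01 : ∀ x, u x = 0 ∨ u x = 1 := fun x => by simp only [hu]; split_ifs <;> simp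
      have hsum : ∑ i, ∑ x, |φ (π i x) - φ x|
          = ∑ i, ∑ x, |φ' (π i x) - φ' x| + (d - c) * ∑ i, ∑ x, |u (π i x) - u x| := by
        rw [Finset.mul_sum, ← Finset.sum_add_distrib]
        refine Finset.sum_congr rfl fun i _ => ?_
        rw [Finset.mul_sum, ← Finset.sum_add_distrib]
        refine Finset.sum_congr rfl fun x _ => ?_
        exact (abs_sub_min_add c d _ _ hcd (hval _) (hval _)).symm
      rw [hsum]
      have e : ∑ x, φ x * τ x = ∑ x, φ' x * τ x + (d - c) * ∑ x, u x * τ x := by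
        rw [Finset.mul_sum, ← Finset.sum_add_distrib]
        exact Finset.sum_congr rfl fun x _ => by rw [hdec x]; ring
      rw [e]
      have i1 := ih φ' hcard
      have i2 := h u hu01
      have hcd' : 0 ≤ d - c := by linarith
      calc _ ≤ |∑ x, φ' x * τ x| + (d - c) * |∑ x, u x * τ x| := by
            refine (abs_add_le _ _).trans (le_of_eq ?_)
            rw [abs_mul, abs_of_nonneg hcd']
        _ ≤ _ := by
            have := mul_le_mul_of_nonneg_left i2 hcd'
            nlinarith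

/-- The `ℓ¹` Poincaré inequality over any finite ring isomorphic to some `ZMod N`. -/
theorem poincare {R : Type*} [CommRing R] [Fintype R] {N : ℕ} [NeZero N] (e : R ≃+* ZMod N)
    {Λ : Type*} [Fintype Λ] (σ : Fin 4 → Equiv.Perm Λ) (h2 : σ 2 = 1) (h3 : σ 3 = 1)
    (φ τ : Λ × (R × R) → ℝ) (hτ : ∀ x, |τ x| ≤ 1) (hτ0 : ∀ L, ∑ v, τ (L, v) = 0) :
    |∑ x, φ x * τ x| ≤ 1640 * ∑ s, ∑ x : Λ × (R × R), |φ (σ s x.1, affMap s x.2) - φ x| := by
  refine layer_cake (fun s (x : Λ × (R × R)) => (σ s x.1, affMap s x.2)) τ 1640 ?_ ?_ φ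
  · rw [Fintype.sum_prod_type]
    exact Finset.sum_eq_zero fun L _ => hτ0 L
  · intro u hu
    set E : R × R ≃ ZMod N × ZMod N := e.toEquiv.prodCongr e.toEquiv with hE
    have hEsymm : ∀ s v, E.symm (affMap s v) = affMap s (E.symm v) := fun s v =>
      affMap_ringHom e.symm.toRingHom s v
    have h := torus_cut σ h2 h3 (fun L v => u (L, E.symm v)) (fun L v => τ (L, E.symm v))
      (fun L v => hu _) (fun L v => hτ _)
      (fun L => by rw [Equiv.sum_comp E.symm (fun v => τ (L, v))]; exact hτ0 L)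
    simp only [hEsymm] at h
    have c1 : ∀ L, ∑ v, u (L, E.symm v) * τ (L, E.symm v) = ∑ v, u (L, v) * τ (L, v) := fun L =>
      Equiv.sum_comp E.symm (fun v => u (L, v) * τ (L, v))
    have c2 : ∀ s L, ∑ v, |u (σ s L, affMap s (E.symm v)) - u (L, E.symm v)|
        = ∑ v, |u (σ s L, affMap s v) - u (L, v)| := fun s L =>
      Equiv.sum_comp E.symm (fun v => |u (σ s L, affMap s v) - u (L, v)|)
    simp only [c1, c2] at h
    simpa only [Fintype.sum_prod_type] using h

end

end Vale.Agent.P090
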