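import Vale.Agent.P090.Offsets
import Vale.Agent.P090.Poincare

/-!
Counting holes, and the Poincaré inequality on products of two levels.
-/

namespace Vale.Agent.P090

open scoped Classical
open Finset

noncomputable section

namespace Par

variable (P : Par)

instance : Fintype P.Pos := Fintype.ofFinite _

instance : Fintype P.Tree := Fintype.ofFinite _

instance : Fintype P.Base := Fintype.ofFinite _

/-- The indicator of a hole. -/
def holeInd (i : ℕ) (b : P.Fib i) : ℝ := if P.Hole i b then 1 else 0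

theorem holeInd_01 (i : ℕ) (b : P.Fib i) : P.holeInd i b = 0 ∨ P.holeInd i b = 1 := by
  simp only [holeInd]; split_ifs <;> simp

theorem holeInd_sum (i : ℕ) :
    ∑ b : P.Fib i, P.holeInd i b = ((P.p i / 2 : ℕ) : ℝ) * (P.p i : ℝ) := by
  have hh : P.p i / 2 ≤ P.p i := Nat.div_le_self _ _
  have h1 : (univ.filter fun x : ZMod (P.p i) => x.val < P.p i / 2).card = P.p i / 2 := by
    conv_rhs => rw [← Finset.card_range (P.p i / 2)]
    refine Finset.card_bij (fun x _ => x.val) ?_ ?_ ?_
    · intro x hx; simpa using hx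
    · intro x _ y _ h; exact ZMod.val_injective _ h
    · intro m hm
      have hm' : m < P.p i / 2 := Finset.mem_range.mp hm
      exact ⟨(m : ZMod (P.p i)), by simp [ZMod.val_natCast_of_lt (show m < P.p i by omega), hm'],
        ZMod.val_natCast_of_lt (by omega)⟩
  have h2 : ∀ x y, P.holeInd i (x, y) = if x.val < P.p i / 2 then 1 else 0 := fun x y => by
    simp only [holeInd]
    exact if_congr Iff.rfl rfl rfl
  rw [Fintype.sum_prod_type]
  simp only [h2, Finset.sum_const, Finset.card_univ, ZMod.card, nsmul_eq_mul]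
  rw [← Finset.mul_sum, Finset.sum_boole, h1]
  ring

/-- Density of the holes. -/
def dens (i : ℕ) : ℝ := ((P.p i / 2 : ℕ) : ℝ) / (P.p i : ℝ)

theorem two_lt_p (i : ℕ) : 2 < P.p i := by
  have h1 := P.q_lt_p i
  have h2 := P.hq
  have h3 : 0 < 3 ^ (P.R + 4) := by positivity
  omega

theorem p_pos (i : ℕ) : 0 < (P.p i : ℝ) := by exact_mod_cast (P.p_prime i).pos

theorem dens_nonneg (i : ℕ) : 0 ≤ P.dens i := by unfold dens; positivity

theorem dens_le_half (i : ℕ) : P.dens i ≤ 1 / 2 := by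
  rw [dens, div_le_iff₀ (P.p_pos i)]
  have : ((P.p i / 2 : ℕ) : ℝ) * 2 ≤ P.p i := by exact_mod_cast Nat.div_mul_le_self _ 2
  linarith

theorem dens_scaled (i : ℕ) : |(P.ρ : ℝ) * (P.dens i - 1 / 2)| ≤ 1 := by
  obtain ⟨k, hk⟩ := (P.p_prime i).odd_of_ne_two (Nat.ne_of_gt (P.two_lt_p i))
  have hd : P.p i / 2 = k := by omega
  have hp : (P.p i : ℝ) = 2 * k + 1 := by exact_mod_cast hk
  have hρp : (P.ρ : ℝ) ≤ P.p i := by exact_mod_cast P.ρ_le_p i
  have e : P.dens i - 1 / 2 = -(1 / (2 * (P.p i : ℝ))) := by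
    rw [dens, hd, hp]
    field_simp
    ring
  rw [e, mul_neg, abs_neg, abs_of_nonneg (by positivity), mul_one_div,
    div_le_one (by have := P.p_pos i; positivity)]
  linarith [P.p_pos i]

theorem holeInd_centered (i : ℕ) : ∑ b : P.Fib i, (P.holeInd i b - P.dens i) = 0 := by
  rw [Finset.sum_sub_distrib, P.holeInd_sum, Finset.sum_const, Finset.card_univ, Fintype.card_prod,
    ZMod.card, nsmul_eq_mul, dens]
  have := (P.p_pos i).ne'
  push_cast
  field_simp
  ring

theorem holeInd_sub_dens_abs (i : ℕ) (b : P.Fib i) : |P.holeInd i b - P.dens i| ≤ 1 := by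
  have := P.dens_nonneg i
  have := P.dens_le_half i
  rw [abs_le]
  rcases P.holeInd_01 i b with h | h <;> rw [h] <;> constructor <;> linarith

/-- The indicator of the fibre points whose tree edges are present. -/
def present (i : ℕ) (b : P.Fib i) : ℝ := 1 - P.holeInd i b

theorem present_nonneg (i : ℕ) (b : P.Fib i) : 0 ≤ P.present i b := by
  rcases P.holeInd_01 i b with h | h <;> simp [present, h]

theorem present_le_one (i : ℕ) (b : P.Fib i) : P.present i b ≤ 1 := by
  rcases P.holeInd_01 i b with h | h <;> simp [present, h]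

theorem present_sum (i : ℕ) :
    (Fintype.card (P.Fib i) : ℝ) ≤ 2 * ∑ b : P.Fib i, P.present i b := by
  simp only [present]
  rw [Finset.sum_sub_distrib, P.holeInd_sum, Finset.sum_const, Finset.card_univ, Fintype.card_prod,
    ZMod.card, nsmul_eq_mul, Nat.cast_mul, mul_one]
  have h2 : ((P.p i / 2 : ℕ) : ℝ) * 2 ≤ P.p i := by exact_mod_cast Nat.div_mul_le_self _ 2
  nlinarith [P.p_pos i]

/-- The affine part fixing the origin. -/
abbrev Lin : Type := {g : P.Pos // g 0 = 0}

/-- Translation decomposition of positions. -/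
def posSplit : P.Lin × (ZMod P.q × ZMod P.q) ≃ P.Pos where
  toFun x := Equiv.addLeft x.2 * x.1.1
  invFun g := (⟨Equiv.addLeft (-(g 0)) * g, by simp⟩, g 0)
  left_inv x := by
    obtain ⟨⟨g, hg⟩, v⟩ := x
    have h0 : (Equiv.addLeft v * g) 0 = v := by simp [hg]
    refine Prod.ext (Subtype.ext (Equiv.ext fun y => ?_)) h0
    simp [hg]
  right_inv g := by
    refine Equiv.ext fun y => ?_
    simp

/-- Coordinates on the product of the base with two levels. -/
def pairEquiv (n i : ℕ) :
    (P.Lin × P.Tree) × ((ZMod P.q × (ZMod (P.p n) × ZMod (P.p i))) ×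
        (ZMod P.q × (ZMod (P.p n) × ZMod (P.p i))))
      ≃ P.Base × P.Fib n × P.Fib i where
  toFun x := ((P.posSplit (x.1.1, (x.2.1.1, x.2.2.1)), x.1.2),
    ((x.2.1.2.1, x.2.2.2.1), (x.2.1.2.2, x.2.2.2.2)))
  invFun y := (((P.posSplit.symm y.1.1).1, y.1.2),
    (((P.posSplit.symm y.1.1).2.1, (y.2.1.1, y.2.2.1)),
      ((P.posSplit.symm y.1.1).2.2, (y.2.1.2, y.2.2.2))))
  left_inv x := by
    simp only [Equiv.symm_apply_apply]
  right_inv y := by
    simp only [Prod.mk.eta, Equiv.apply_symm_apply]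

/-- The action of a generator on the linear part. -/
def linMove (s : Fin 4) : Equiv.Perm P.Lin :=
  if h : affMap s (0 : ZMod P.q × ZMod P.q) = 0 then
    Equiv.subtypeEquiv (Equiv.mulLeft (affPerm (ZMod P.q) s)) (fun g => by
      simp only [Equiv.coe_mulLeft, Equiv.Perm.mul_apply]
      constructor
      · intro hg; rw [hg]; exact h
      · intro hg
        refine (affPerm (ZMod P.q) s).injective ?_
        rw [hg]; exact h.symm)
  else 1

theorem linMove_trans (s : Fin 4) (hs : s = 2 ∨ s = 3) : P.linMove s = 1 := by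
  have : Fact (1 < P.q) := ⟨by have := P.hq; have : 0 < 3 ^ (P.R + 4) := (by positivity); omega⟩
  refine dif_neg ?_
  rcases hs with rfl | rfl <;> simp [affMap]

theorem posSplit_move (s : Fin 4) (L : P.Lin) (v : ZMod P.q × ZMod P.q) :
    P.posSplit (P.linMove s L, affMap s v)
      = affHom (ZMod P.q) (FreeGroup.of s) * P.posSplit (L, v) := by
  refine Equiv.ext fun y => ?_
  have hq1 : Fact (1 < P.q) := ⟨by have := P.hq; have : 0 < 3 ^ (P.R + 4) := (by positivity); omega⟩
  fin_cases s <;>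
    ext <;>
      simp [posSplit, linMove, affHom, affPerm_apply, affMap, Equiv.subtypeEquiv] <;> ring

theorem affMap_triple (n i : ℕ) (s : Fin 4)
    (v : (ZMod P.q × (ZMod (P.p n) × ZMod (P.p i))) × (ZMod P.q × (ZMod (P.p n) × ZMod (P.p i)))) :
    ((affMap s v).1.1, (affMap s v).2.1) = affMap s (v.1.1, v.2.1) ∧
      ((affMap s v).1.2.1, (affMap s v).2.2.1) = affMap s (v.1.2.1, v.2.2.1) ∧
      ((affMap s v).1.2.2, (affMap s v).2.2.2) = affMap s (v.1.2.2, v.2.2.2) := by
  fin_cases s <;> simp [affMap]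

/-- The Poincaré inequality on a product of two distinct levels over the base. -/
theorem pair_poincare {n i : ℕ} (hni : n ≠ i) (φ : P.Base → P.Fib n → P.Fib i → ℝ)
    (f : P.Fib n → ℝ) (g : P.Fib i → ℝ) (hf : ∀ b, |f b| ≤ 1) (hg : ∀ b, |g b| ≤ 1)
    (hg0 : ∑ b, g b = 0) :
    |∑ a, ∑ b, ∑ β, φ a b β * (f b * g β)|
      ≤ 1640 * ∑ s, ∑ a, ∑ b, ∑ β, |φ (P.sMove s a) (affMap s b) (affMap s β) - φ a b β| := by
  have hpq : ∀ m, Nat.Coprime P.q (P.p m) := fun m =>
    ((P.p_prime m).coprime_iff_not_dvd.mpr fun h => by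
      have := Nat.le_of_dvd (Nat.pos_of_ne_zero (NeZero.ne P.q)) h
      have := P.q_lt_p m
      omega).symm
  have h2 : Nat.Coprime (P.p n) (P.p i) :=
    (Nat.coprime_primes (P.p_prime n) (P.p_prime i)).mpr fun h => hni (P.p_inj h)
  have h1 : Nat.Coprime P.q (P.p n * P.p i) := Nat.Coprime.mul_right (hpq n) (hpq i)
  let e : (ZMod P.q × (ZMod (P.p n) × ZMod (P.p i))) ≃+* ZMod (P.q * (P.p n * P.p i)) :=
    (RingEquiv.prodCongr (RingEquiv.refl (ZMod P.q)) (ZMod.chineseRemainder h2).symm).trans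
      (ZMod.chineseRemainder h1).symm
  have : NeZero (P.q * (P.p n * P.p i)) :=
    ⟨Nat.mul_ne_zero (NeZero.ne _) (Nat.mul_ne_zero (NeZero.ne _) (NeZero.ne _))⟩
  let σ : Fin 4 → Equiv.Perm (P.Lin × P.Tree) := fun s => (P.linMove s).prodCongr (Equiv.refl _)
  let E := P.pairEquiv n i
  let Φ : P.Base × P.Fib n × P.Fib i → ℝ := fun y => φ y.1 y.2.1 y.2.2
  let τ : P.Base × P.Fib n × P.Fib i → ℝ := fun y => f y.2.1 * g y.2.2
  have hσ : ∀ s x, E (σ s x.1, affMap s x.2)
      = (P.sMove s (E x).1, affMap s (E x).2.1, affMap s (E x).2.2) := by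
    intro s x
    obtain ⟨t1, t2, t3⟩ := P.affMap_triple n i s x.2
    refine Prod.ext (Prod.ext ?_ rfl) (Prod.ext t2 t3)
    show P.posSplit (P.linMove s x.1.1, ((affMap s x.2).1.1, (affMap s x.2).2.1)) = _
    rw [t1, P.posSplit_move]
    rfl
  have h := poincare e σ
    (Equiv.ext fun x => by simp [σ, P.linMove_trans 2 (Or.inl rfl)])
    (Equiv.ext fun x => by simp [σ, P.linMove_trans 3 (Or.inr rfl)])
    (fun x => Φ (E x)) (fun x => τ (E x))
    (fun x => by
      simp only [τ, abs_mul]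
      exact mul_le_one₀ (hf _) (abs_nonneg _) (hg _))
    (fun L => by
      simp only [τ, E, pairEquiv, Equiv.coe_fn_mk, Fintype.sum_prod_type]
      refine Finset.sum_eq_zero fun x _ => ?_
      have hcomm : ∀ y : ZMod (P.p n), ∑ z : ZMod (P.p i), ∑ x' : ZMod P.q, ∑ y' : ZMod (P.p n),
          ∑ z' : ZMod (P.p i), f (y, y') * g (z, z') = 0 := by
        intro y
        rw [Finset.sum_comm]
        refine Finset.sum_eq_zero fun x' _ => ?_
        rw [Finset.sum_comm]
        refine Finset.sum_eq_zero fun y' _ => ?_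
        simp only [← Finset.mul_sum, ← Fintype.sum_prod_type, hg0, mul_zero]
      exact Finset.sum_eq_zero fun y _ => hcomm y)
  simp only [hσ] at h
  rw [Equiv.sum_comp E (fun y => Φ y * τ y)] at h
  have h' : ∀ s, ∑ x, |Φ (P.sMove s (E x).1, affMap s (E x).2.1, affMap s (E x).2.2) - Φ (E x)|
      = ∑ y : P.Base × P.Fib n × P.Fib i,
        |Φ (P.sMove s y.1, affMap s y.2.1, affMap s y.2.2) - Φ y| := fun s =>
    Equiv.sum_comp E (fun y => |Φ (P.sMove s y.1, affMap s y.2.1, affMap s y.2.2) - Φ y|)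
  simp only [h', Φ, τ] at h
  have eL : ∀ F : P.Base → P.Fib n → P.Fib i → ℝ,
      ∑ y : P.Base × P.Fib n × P.Fib i, F y.1 y.2.1 y.2.2 = ∑ a, ∑ b, ∑ β, F a b β := fun F => by
    rw [Fintype.sum_prod_type]
    exact Finset.sum_congr rfl fun a _ => Fintype.sum_prod_type _
  rw [eL (fun a b β => φ a b β * (f b * g β))] at h
  simp only [fun s => eL (fun a b β =>
    |φ (P.sMove s a) (affMap s b) (affMap s β) - φ a b β|)] at h
  exact h

end Par

end

end Vale.Agent.P090
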