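import Mathlib

/-!
The Lipschitz-free space of a pointed metric space and the bounded approximation property.
-/

namespace Vale.Agent.P090

noncomputable section

/-- Real Lipschitz functions vanishing at the base point, as a linear subspace of all functions. -/
def lipSubmodule (M : Type) [MetricSpace M] (o : M) : Submodule ℝ (M → ℝ) where
  carrier := {f | f o = 0 ∧ ∃ C : ℝ, 0 ≤ C ∧ ∀ x y, |f x - f y| ≤ C * dist x y}
  zero_mem' := ⟨rfl, 0, le_rfl, fun x y => by simp⟩
  add_mem' := by
    rintro f g ⟨hf, C, hC, hfC⟩ ⟨hg, D, hD, hgD⟩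
    refine ⟨by simp [hf, hg], C + D, add_nonneg hC hD, fun x y => ?_⟩
    calc |(f + g) x - (f + g) y| = |(f x - f y) + (g x - g y)| := by
          simp only [Pi.add_apply]; ring_nf
      _ ≤ |f x - f y| + |g x - g y| := abs_add_le _ _
      _ ≤ C * dist x y + D * dist x y := add_le_add (hfC x y) (hgD x y)
      _ = (C + D) * dist x y := by ring
  smul_mem' := by
    rintro c f ⟨hf, C, hC, hfC⟩
    refine ⟨by simp [hf], |c| * C, mul_nonneg (abs_nonneg c) hC, fun x y => ?_⟩
    simp only [Pi.smul_apply, smul_eq_mul, ← mul_sub, abs_mul, mul_assoc]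
    exact mul_le_mul_of_nonneg_left (hfC x y) (abs_nonneg c)

/-- The space `Lip₀(M)` of real Lipschitz functions vanishing at `o`. -/
def Lip0 (M : Type) [MetricSpace M] (o : M) : Type := ↥(lipSubmodule M o)

variable {M : Type} [MetricSpace M] {o : M}

instance : AddCommGroup (Lip0 M o) := inferInstanceAs (AddCommGroup ↥(lipSubmodule M o))

instance : Module ℝ (Lip0 M o) := inferInstanceAs (Module ℝ ↥(lipSubmodule M o))

/-- The function underlying an element of `Lip₀(M)`. -/
def Lip0.val (f : Lip0 M o) : M → ℝ := Subtype.val f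

theorem Lip0.ext' {f g : Lip0 M o} (h : f.val = g.val) : f = g := Subtype.ext h

@[simp] theorem Lip0.val_zero : (0 : Lip0 M o).val = 0 := rfl

@[simp] theorem Lip0.val_add (f g : Lip0 M o) : (f + g).val = f.val + g.val := rfl

@[simp] theorem Lip0.val_neg (f : Lip0 M o) : (-f).val = -f.val := rfl

@[simp] theorem Lip0.val_smul (c : ℝ) (f : Lip0 M o) : (c • f).val = c • f.val := rfl

theorem Lip0.val_base (f : Lip0 M o) : f.val o = 0 := (Subtype.property f).1

/-- The best Lipschitz constant. -/
def lipConst (f : Lip0 M o) : ℝ :=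
  sInf {C : ℝ | 0 ≤ C ∧ ∀ x y, |f.val x - f.val y| ≤ C * dist x y}

theorem lipConst_nonneg (f : Lip0 M o) : 0 ≤ lipConst f :=
  Real.sInf_nonneg fun _ hC => hC.1

theorem lipConst_le (f : Lip0 M o) {C : ℝ} (hC : 0 ≤ C)
    (h : ∀ x y, |f.val x - f.val y| ≤ C * dist x y) : lipConst f ≤ C :=
  csInf_le ⟨0, fun _ hD => hD.1⟩ ⟨hC, h⟩

theorem lipConst_spec (f : Lip0 M o) (x y : M) :
    |f.val x - f.val y| ≤ lipConst f * dist x y := by
  obtain ⟨C0, h0, hC0⟩ := (Subtype.property f).2
  rcases (dist_nonneg : 0 ≤ dist x y).eq_or_lt with h | h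
  · have := hC0 x y
    rw [← h, mul_zero] at this ⊢
    exact this
  · rw [← div_le_iff₀ h]
    exact le_csInf ⟨C0, h0, hC0⟩ fun C hC => (div_le_iff₀ h).mpr (hC.2 x y)

/-- The Lipschitz constant is a norm on `Lip₀(M)`. -/
def lipNorm : AddGroupNorm (Lip0 M o) where
  toFun := lipConst
  map_zero' := le_antisymm (lipConst_le 0 le_rfl fun x y => by simp) (lipConst_nonneg 0)
  add_le' f g := lipConst_le _ (add_nonneg (lipConst_nonneg f) (lipConst_nonneg g)) fun x y => by
    calc |(f + g).val x - (f + g).val y| = |(f.val x - f.val y) + (g.val x - g.val y)| := by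
          simp only [Lip0.val_add, Pi.add_apply]; ring_nf
      _ ≤ |f.val x - f.val y| + |g.val x - g.val y| := abs_add_le _ _
      _ ≤ _ := by
          rw [add_mul]; exact add_le_add (lipConst_spec f x y) (lipConst_spec g x y)
  neg' f := by
    simp only [lipConst, Lip0.val_neg, Pi.neg_apply, neg_sub_neg]
    congr 1
    ext C
    simp [abs_sub_comm]
  eq_zero_of_map_eq_zero' f hf := Lip0.ext' (funext fun x => by
    have := lipConst_spec f x o
    rw [hf, zero_mul, Lip0.val_base, sub_zero, abs_nonpos_iff] at this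
    simpa using this)

instance : NormedAddCommGroup (Lip0 M o) := AddGroupNorm.toNormedAddCommGroup lipNorm

theorem norm_eq_lipConst (f : Lip0 M o) : ‖f‖ = lipConst f := rfl

instance : NormedSpace ℝ (Lip0 M o) where
  norm_smul_le c f := by
    simp only [norm_eq_lipConst, Real.norm_eq_abs]
    refine lipConst_le _ (mul_nonneg (abs_nonneg c) (lipConst_nonneg f)) fun x y => ?_
    simp only [Lip0.val_smul, Pi.smul_apply, smul_eq_mul, ← mul_sub, abs_mul, mul_assoc]
    exact mul_le_mul_of_nonneg_left (lipConst_spec f x y) (abs_nonneg c)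

/-- Evaluation at a point, as an element of the dual of `Lip₀(M)`. -/
def dirac (M : Type) [MetricSpace M] (o : M) (x : M) : StrongDual ℝ (Lip0 M o) :=
  LinearMap.mkContinuous
    { toFun := fun f => f.val x
      map_add' := fun f g => rfl
      map_smul' := fun c f => rfl }
    (dist x o)
    (fun f => by
      have := lipConst_spec f x o
      rw [Lip0.val_base, sub_zero, mul_comm] at this
      exact this)

@[simp] theorem dirac_apply (x : M) (f : Lip0 M o) : dirac M o x f = f.val x := rfl

/-- The Lipschitz-free space: the closed linear span of the point evaluations. -/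
def FreeSpace (M : Type) [MetricSpace M] (o : M) : Submodule ℝ (StrongDual ℝ (Lip0 M o)) :=
  (Submodule.span ℝ (Set.range (dirac M o))).topologicalClosure

/-- The `lam`-bounded approximation property. -/
def HasLambdaBAP (X : Type) [NormedAddCommGroup X] [NormedSpace ℝ X] (lam : ℝ) : Prop :=
  ∀ K : Set X, IsCompact K → ∀ ε : ℝ, 0 < ε →
    ∃ T : X →L[ℝ] X, FiniteDimensional ℝ T.toLinearMap.range ∧ ‖T‖ ≤ lam ∧
      ∀ u ∈ K, ‖T u - u‖ < ε

/-- The bounded approximation property. -/
def HasBAP (X : Type) [NormedAddCommGroup X] [NormedSpace ℝ X] : Prop :=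
  ∃ lam : ℝ, 1 ≤ lam ∧ HasLambdaBAP X lam

/-- A metric space whose distinct points are uniformly separated. -/
def IsUniformlyDiscrete (M : Type) [MetricSpace M] : Prop :=
  ∃ θ : ℝ, 0 < θ ∧ ∀ x y : M, x ≠ y → θ ≤ dist x y

theorem norm_dirac_sub (x y : M) : ‖dirac M o x - dirac M o y‖ = dist x y := by
  refine le_antisymm ?_ ?_
  · refine ContinuousLinearMap.opNorm_le_bound _ dist_nonneg fun f => ?_
    have := lipConst_spec f x y
    simpa [Real.norm_eq_abs, norm_eq_lipConst, mul_comm] using this
  · let f : Lip0 M o := ⟨fun z => dist z y - dist o y, by simp, 1, zero_le_one, fun a b => by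
      simpa using abs_dist_sub_le a b y⟩
    have hf : ‖f‖ ≤ 1 := lipConst_le f zero_le_one fun a b => by
      simpa [f, Lip0.val] using abs_dist_sub_le a b y
    have hv : (dirac M o x - dirac M o y) f = dist x y := by
      show (dist x y - dist o y) - (dist y y - dist o y) = dist x y
      simp
    have := (dirac M o x - dirac M o y).le_opNorm f
    rw [hv, Real.norm_eq_abs, abs_of_nonneg dist_nonneg] at this
    calc dist x y ≤ ‖dirac M o x - dirac M o y‖ * ‖f‖ := this
      _ ≤ _ := mul_le_of_le_one_right (norm_nonneg _) hf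

end

end Vale.Agent.P090
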