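import Mathlib

/-!
A Gabber–Galil type Poincaré inequality for the action of the integral affine group
on the discrete torus `ZMod N × ZMod N`.
-/

namespace Vale.Agent.P090

open scoped BigOperators ComplexConjugate
open Finset

noncomputable section

/-- The linear part and translations of the four standard affine generators. -/
def affMap {R : Type*} [CommRing R] (s : Fin 4) (v : R × R) : R × R :=
  if s = 0 then (v.1 + 2 * v.2, v.2)
  else if s = 1 then (v.1, 2 * v.1 + v.2)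
  else if s = 2 then (v.1 + 1, v.2)
  else (v.1, v.2 + 1)

/-- The inverse of `affMap`. -/
def affInv {R : Type*} [CommRing R] (s : Fin 4) (v : R × R) : R × R :=
  if s = 0 then (v.1 - 2 * v.2, v.2)
  else if s = 1 then (v.1, v.2 - 2 * v.1)
  else if s = 2 then (v.1 - 1, v.2)
  else (v.1, v.2 - 1)

/-- The affine generators as permutations of the plane over a ring. -/
def affPerm (R : Type*) [CommRing R] (s : Fin 4) : Equiv.Perm (R × R) where
  toFun := affMap s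
  invFun := affInv s
  left_inv v := by fin_cases s <;> simp [affMap, affInv]
  right_inv v := by fin_cases s <;> simp [affMap, affInv]

theorem affPerm_apply (R : Type*) [CommRing R] (s : Fin 4) (v : R × R) :
    affPerm R s v = affMap s v := rfl

theorem affMap_ringHom {R S : Type*} [CommRing R] [CommRing S] (f : R →+* S) (s : Fin 4)
    (v : R × R) :
    Prod.map f f (affMap s v) = affMap s (Prod.map f f v) := by
  fin_cases s <;> simp [affMap, map_ofNat]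

section Fourier

variable {N : ℕ} [NeZero N]

/-- The Fourier transform of a real function on the torus. -/
def ft (f : ZMod N × ZMod N → ℝ) (ξ : ZMod N × ZMod N) : ℂ :=
  ∑ v, (f v : ℂ) * ZMod.stdAddChar (ξ.1 * v.1 + ξ.2 * v.2)

theorem ft_sub (f g : ZMod N × ZMod N → ℝ) (ξ : ZMod N × ZMod N) :
    ft (fun v => f v - g v) ξ = ft f ξ - ft g ξ := by
  simp [ft, sub_mul, Finset.sum_sub_distrib]

theorem conj_stdAddChar (t : ZMod N) :
    conj (ZMod.stdAddChar t : ℂ) = ZMod.stdAddChar (-t) := by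
  exact (AddChar.map_neg_eq_conj _ t).symm

theorem char_orth (a b : ZMod N) :
    ∑ x : ZMod N, (ZMod.stdAddChar (x * a) : ℂ) * conj (ZMod.stdAddChar (x * b) : ℂ)
      = if a = b then (N : ℂ) else 0 := by
  have h := AddChar.sum_mulShift (R' := ℂ) (a - b) (ZMod.isPrimitive_stdAddChar N)
  simp only [ZMod.card] at h
  calc
    _ = ∑ x : ZMod N, (ZMod.stdAddChar (x * (a - b)) : ℂ) := by
      refine Finset.sum_congr rfl fun x _ => ?_
      rw [conj_stdAddChar, ← AddChar.map_add_eq_mul]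
      congr 1
      ring
    _ = _ := by
      rw [h]
      simp only [sub_eq_zero]
      split_ifs <;> simp

theorem plancherel (f : ZMod N × ZMod N → ℝ) :
    ∑ ξ, Complex.normSq (ft f ξ) = (N : ℝ) ^ 2 * ∑ v, (f v) ^ 2 := by
  have key : ∀ v w : ZMod N × ZMod N,
      ∑ ξ : ZMod N × ZMod N, (ZMod.stdAddChar (ξ.1 * v.1 + ξ.2 * v.2) : ℂ) *
          conj (ZMod.stdAddChar (ξ.1 * w.1 + ξ.2 * w.2) : ℂ)
        = if v = w then (N : ℂ) ^ 2 else 0 := by
    intro v w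
    rw [Fintype.sum_prod_type]
    simp only [AddChar.map_add_eq_mul, map_mul]
    calc
      _ = (∑ x : ZMod N, (ZMod.stdAddChar (x * v.1) : ℂ) * conj (ZMod.stdAddChar (x * w.1) : ℂ)) *
          ∑ y : ZMod N, (ZMod.stdAddChar (y * v.2) : ℂ) * conj (ZMod.stdAddChar (y * w.2) : ℂ) := by
        rw [Finset.sum_mul_sum]
        refine Finset.sum_congr rfl fun x _ => Finset.sum_congr rfl fun y _ => ?_
        ring
      _ = _ := by
        rw [char_orth, char_orth]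
        rcases v with ⟨v1, v2⟩
        rcases w with ⟨w1, w2⟩
        simp only [Prod.mk.injEq]
        by_cases h1 : v1 = w1 <;> by_cases h2 : v2 = w2 <;> simp [h1, h2, sq]
  have hc : ((∑ ξ, Complex.normSq (ft f ξ) : ℝ) : ℂ)
      = (((N : ℝ) ^ 2 * ∑ v, (f v) ^ 2 : ℝ) : ℂ) := by
    rw [Complex.ofReal_sum]
    calc
      _ = ∑ ξ : ZMod N × ZMod N, ∑ v : ZMod N × ZMod N, ∑ w : ZMod N × ZMod N,
          ((f v : ℂ) * (f w : ℂ)) * ((ZMod.stdAddChar (ξ.1 * v.1 + ξ.2 * v.2) : ℂ) *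
            conj (ZMod.stdAddChar (ξ.1 * w.1 + ξ.2 * w.2) : ℂ)) := by
        refine Finset.sum_congr rfl fun ξ _ => ?_
        rw [← Complex.mul_conj, ft, map_sum, Finset.sum_mul_sum]
        refine Finset.sum_congr rfl fun v _ => Finset.sum_congr rfl fun w _ => ?_
        simp only [map_mul, Complex.conj_ofReal]
        ring
      _ = ∑ v : ZMod N × ZMod N, ∑ w : ZMod N × ZMod N,
          ((f v : ℂ) * (f w : ℂ)) * (if v = w then (N : ℂ) ^ 2 else 0) := by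
        rw [Finset.sum_comm]
        refine Finset.sum_congr rfl fun v _ => ?_
        rw [Finset.sum_comm]
        refine Finset.sum_congr rfl fun w _ => ?_
        rw [← Finset.mul_sum, key]
      _ = _ := by
        simp only [mul_ite, mul_zero, Finset.sum_ite_eq, Finset.mem_univ, if_true]
        push_cast
        rw [Finset.mul_sum]
        refine Finset.sum_congr rfl fun v _ => ?_
        ring
  exact_mod_cast hc

theorem ft_zero (f : ZMod N × ZMod N → ℝ) : ft f 0 = ((∑ v, f v : ℝ) : ℂ) := by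
  simp [ft]

theorem variance_eq (f : ZMod N × ZMod N → ℝ) :
    (N : ℝ) ^ 2 * ∑ v, (f v - (∑ w, f w) / (N : ℝ) ^ 2) ^ 2
      = ∑ ξ ∈ univ.erase 0, Complex.normSq (ft f ξ) := by
  have hN : (N : ℝ) ≠ 0 := by exact_mod_cast NeZero.ne N
  have h1 := plancherel f
  rw [← Finset.add_sum_erase univ _ (Finset.mem_univ (0 : ZMod N × ZMod N)), ft_zero,
    Complex.normSq_ofReal] at h1
  set A := ∑ w, f w with hA
  have h2 : ∑ v, (f v - A / (N : ℝ) ^ 2) ^ 2
      = ∑ v, (f v) ^ 2 - 2 * (A / (N : ℝ) ^ 2) * A + (N : ℝ) ^ 2 * (A / (N : ℝ) ^ 2) ^ 2 := by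
    simp only [sub_sq]
    rw [Finset.sum_add_distrib, Finset.sum_sub_distrib, Finset.sum_const, Finset.card_univ,
      nsmul_eq_mul, Fintype.card_prod, ZMod.card, Nat.cast_mul]
    have : ∑ v, 2 * f v * (A / (N : ℝ) ^ 2) = 2 * (A / (N : ℝ) ^ 2) * A := by
      rw [← Finset.sum_mul, ← Finset.mul_sum, ← hA]
      ring
    rw [this]
    ring
  rw [h2]
  field_simp
  linear_combination -h1

theorem shear1_sum (f : ZMod N × ZMod N → ℝ) (ξ : ZMod N × ZMod N) :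
    ft (fun v => f (affMap 0 v)) ξ = ft f (ξ.1, ξ.2 - 2 * ξ.1) := by
  unfold ft
  rw [← Equiv.sum_comp (affPerm (ZMod N) 0).symm]
  refine Finset.sum_congr rfl fun v _ => ?_
  simp [affPerm, affMap, affInv]
  left
  congr 1
  ring

theorem shear2_sum (f : ZMod N × ZMod N → ℝ) (ξ : ZMod N × ZMod N) :
    ft (fun v => f (affMap 1 v)) ξ = ft f (ξ.1 - 2 * ξ.2, ξ.2) := by
  unfold ft
  rw [← Equiv.sum_comp (affPerm (ZMod N) 1).symm]
  refine Finset.sum_congr rfl fun v _ => ?_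
  simp [affPerm, affMap, affInv]
  left
  congr 1
  ring

theorem transl1_sum (f : ZMod N × ZMod N → ℝ) (ξ : ZMod N × ZMod N) :
    ft (fun v => f (affMap 2 v)) ξ = (ZMod.stdAddChar (-ξ.1) : ℂ) * ft f ξ := by
  unfold ft
  rw [← Equiv.sum_comp (affPerm (ZMod N) 2).symm, Finset.mul_sum]
  refine Finset.sum_congr rfl fun v _ => ?_
  simp only [affPerm, Equiv.coe_fn_symm_mk, affMap, affInv]
  simp only [show (2 : Fin 4) ≠ 0 by decide, show (2 : Fin 4) ≠ 1 by decide, if_false, if_true,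
    sub_add_cancel]
  rw [mul_left_comm, ← AddChar.map_add_eq_mul]
  congr 2
  ring

theorem transl2_sum (f : ZMod N × ZMod N → ℝ) (ξ : ZMod N × ZMod N) :
    ft (fun v => f (affMap 3 v)) ξ = (ZMod.stdAddChar (-ξ.2) : ℂ) * ft f ξ := by
  unfold ft
  rw [← Equiv.sum_comp (affPerm (ZMod N) 3).symm, Finset.mul_sum]
  refine Finset.sum_congr rfl fun v _ => ?_
  simp only [affPerm, Equiv.coe_fn_symm_mk, affMap, affInv]
  simp only [show (3 : Fin 4) ≠ 0 by decide, show (3 : Fin 4) ≠ 1 by decide,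
    show (3 : Fin 4) ≠ 2 by decide, if_false, sub_add_cancel]
  rw [mul_left_comm, ← AddChar.map_add_eq_mul]
  congr 2
  ring

theorem char_far {x : ZMod N} (hx : (N : ℤ) < 8 * |x.valMinAbs|) :
    (1 / 2 : ℝ) ≤ Complex.normSq ((ZMod.stdAddChar (-x) : ℂ) - 1) := by
  have hN : (0 : ℝ) < N := by exact_mod_cast Nat.pos_of_ne_zero (NeZero.ne N)
  set k : ℤ := x.valMinAbs with hk
  have hxk : -x = ((-k : ℤ) : ZMod N) := by
    rw [Int.cast_neg, hk, ZMod.coe_valMinAbs]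
  have hmem := ZMod.valMinAbs_mem_Ioc x
  rw [Set.mem_Ioc] at hmem
  rw [hxk, ZMod.stdAddChar_coe]
  set θ : ℝ := 2 * Real.pi * (-k : ℤ) / N with hθ
  have he : (2 * (Real.pi : ℂ) * Complex.I * ((-k : ℤ) : ℂ) / (N : ℂ)) = (θ : ℂ) * Complex.I := by
    rw [hθ]
    push_cast
    ring
  rw [he, Complex.exp_mul_I, ← Complex.ofReal_cos, ← Complex.ofReal_sin]
  have hns : Complex.normSq ((Real.cos θ : ℂ) + (Real.sin θ : ℂ) * Complex.I - 1)
      = 2 - 2 * Real.cos θ := by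
    rw [Complex.normSq_apply]
    simp only [Complex.sub_re, Complex.add_re, Complex.ofReal_re, Complex.mul_re, Complex.I_re,
      mul_zero, Complex.ofReal_im, Complex.I_im, sub_zero, add_zero, Complex.one_re,
      Complex.sub_im, Complex.add_im, Complex.mul_im, Complex.one_im, mul_one, zero_add]
    nlinarith [Real.sin_sq_add_cos_sq θ]
  rw [hns]
  have habs : |θ| = 2 * Real.pi * |(k : ℝ)| / N := by
    rw [hθ, abs_div, abs_mul, abs_of_pos hN, abs_of_pos (by positivity : (0 : ℝ) < 2 * Real.pi),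
      Int.cast_neg, abs_neg]
  have hk1 : (N : ℝ) < 8 * |(k : ℝ)| := by
    rw [← Int.cast_abs]
    exact_mod_cast hx
  have hk2 : 2 * |(k : ℝ)| ≤ N := by
    rw [← Int.cast_abs]
    have : 2 * |k| ≤ (N : ℤ) := by
      rcases abs_cases k with ⟨h, _⟩ | ⟨h, _⟩ <;> omega
    exact_mod_cast this
  have hlo : Real.pi / 4 ≤ |θ| := by
    rw [habs, le_div_iff₀ hN]
    nlinarith [Real.pi_pos]
  have hhi : |θ| ≤ Real.pi := by
    rw [habs, div_le_iff₀ hN]
    nlinarith [Real.pi_pos]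
  have hc : Real.cos θ ≤ Real.sqrt 2 / 2 := by
    rw [← Real.cos_abs, ← Real.cos_pi_div_four]
    exact Real.cos_le_cos_of_nonneg_of_le_pi (by positivity) hhi hlo
  have hs : Real.sqrt 2 ≤ 3 / 2 := by
    rw [Real.sqrt_le_left (by norm_num)]
    norm_num
  linarith

theorem valMinAbs_shear {x y : ZMod N} (hx : 8 * |x.valMinAbs| ≤ (N : ℤ))
    (hy : 8 * |y.valMinAbs| ≤ (N : ℤ)) (c : ℤ) (hc : c = 2 ∨ c = -2) :
    (x + (c : ZMod N) * y).valMinAbs = x.valMinAbs + c * y.valMinAbs := by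
  have hN : (0 : ℤ) < N := by exact_mod_cast Nat.pos_of_ne_zero (NeZero.ne N)
  rw [ZMod.valMinAbs_spec]
  refine ⟨by push_cast; simp, ?_⟩
  rw [Set.mem_Ioc]
  have h1 := abs_le.mp (le_of_eq (rfl : |x.valMinAbs| = |x.valMinAbs|))
  have h2 := abs_le.mp (le_of_eq (rfl : |y.valMinAbs| = |y.valMinAbs|))
  rcases hc with rfl | rfl <;> constructor <;> omega

/-- The frequency classes used in the Gabber–Galil argument. -/
def bigFst (ξ : ZMod N × ZMod N) : Prop := |ξ.2.valMinAbs| < |ξ.1.valMinAbs|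

omit [NeZero N] in
theorem sum_image_le {w : ZMod N × ZMod N → ℝ} (hw : ∀ ξ, 0 ≤ w ξ)
    {s t : Finset (ZMod N × ZMod N)} (U : ZMod N × ZMod N → ZMod N × ZMod N)
    (hU : Set.InjOn U s) (h : ∀ ξ ∈ s, U ξ ∈ t) :
    ∑ ξ ∈ s, w (U ξ) ≤ ∑ ξ ∈ t, w ξ := by
  rw [← Finset.sum_image (f := w) hU]
  exact Finset.sum_le_sum_of_subset_of_nonneg
    (fun η hη => by
      obtain ⟨ξ, hξ, rfl⟩ := Finset.mem_image.mp hη
      exact h ξ hξ)
    (fun η _ _ => hw η)

omit [NeZero N] in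
theorem sum_two_images_le {w : ZMod N × ZMod N → ℝ} (hw : ∀ ξ, 0 ≤ w ξ)
    {s s' t : Finset (ZMod N × ZMod N)} (U V : ZMod N × ZMod N → ZMod N × ZMod N)
    (hU : Set.InjOn U s) (hV : Set.InjOn V s') (h : ∀ ξ ∈ s, U ξ ∈ t) (h' : ∀ ξ ∈ s', V ξ ∈ t)
    (hd : ∀ ξ ∈ s, ∀ η ∈ s', U ξ ≠ V η) :
    ∑ ξ ∈ s, w (U ξ) + ∑ ξ ∈ s', w (V ξ) ≤ ∑ ξ ∈ t, w ξ := by
  rw [← Finset.sum_image (f := w) hU, ← Finset.sum_image (f := w) hV, ← Finset.sum_union]
  · refine Finset.sum_le_sum_of_subset_of_nonneg ?_ (fun η _ _ => hw η)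
    intro η hη
    rcases Finset.mem_union.mp hη with hη | hη
    · obtain ⟨ξ, hξ, rfl⟩ := Finset.mem_image.mp hη
      exact h ξ hξ
    · obtain ⟨ξ, hξ, rfl⟩ := Finset.mem_image.mp hη
      exact h' ξ hξ
  · rw [Finset.disjoint_left]
    intro η hη hη'
    obtain ⟨ξ, hξ, rfl⟩ := Finset.mem_image.mp hη
    obtain ⟨ζ, hζ, hζ'⟩ := Finset.mem_image.mp hη'
    exact hd ξ hξ ζ hζ hζ'.symm

theorem freq_lemma {w : ZMod N × ZMod N → ℝ} (hw : ∀ ξ, 0 ≤ w ξ) (δ : ℝ)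
    (hU : ∀ ξs : Finset (ZMod N × ZMod N),
      ∑ ξ ∈ ξs, |w (ξ.1, ξ.2 - 2 * ξ.1) - w ξ| ≤ δ)
    (hV : ∀ ξs : Finset (ZMod N × ZMod N),
      ∑ ξ ∈ ξs, |w (ξ.1 - 2 * ξ.2, ξ.2) - w ξ| ≤ δ) (h0 : w 0 = 0) :
    ∑ ξ, w ξ ≤ 9 * (∑ ξ ∈ univ.filter
        (fun ξ : ZMod N × ZMod N => (N : ℤ) < 8 * |ξ.1.valMinAbs| ∨ (N : ℤ) < 8 * |ξ.2.valMinAbs|),
          w ξ) + 14 * δ := by
  classical
  set O := univ.filter
    (fun ξ : ZMod N × ZMod N => (N : ℤ) < 8 * |ξ.1.valMinAbs| ∨ (N : ℤ) < 8 * |ξ.2.valMinAbs|)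
    with hO
  set box := univ.filter
    (fun ξ : ZMod N × ZMod N =>
      ξ ≠ 0 ∧ 8 * |ξ.1.valMinAbs| ≤ (N : ℤ) ∧ 8 * |ξ.2.valMinAbs| ≤ (N : ℤ)) with hbox
  set A := univ.filter (fun ξ : ZMod N × ZMod N => |ξ.2.valMinAbs| < |ξ.1.valMinAbs|) with hA
  set B := univ.filter (fun ξ : ZMod N × ZMod N => |ξ.1.valMinAbs| < |ξ.2.valMinAbs|) with hB
  set Ab := box.filter (fun ξ : ZMod N × ZMod N => |ξ.2.valMinAbs| < |ξ.1.valMinAbs|) with hAb
  set Bb := box.filter (fun ξ : ZMod N × ZMod N => |ξ.1.valMinAbs| < |ξ.2.valMinAbs|) with hBb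
  set Dp := box.filter (fun ξ : ZMod N × ZMod N => ξ.1.valMinAbs = ξ.2.valMinAbs) with hDp
  set Dm := box.filter (fun ξ : ZMod N × ZMod N => ξ.1.valMinAbs = -ξ.2.valMinAbs) with hDm
  let Um : ZMod N × ZMod N → ZMod N × ZMod N := fun ξ => (ξ.1, ξ.2 - 2 * ξ.1)
  let Up : ZMod N × ZMod N → ZMod N × ZMod N := fun ξ => (ξ.1, ξ.2 + 2 * ξ.1)
  let Vm : ZMod N × ZMod N → ZMod N × ZMod N := fun ξ => (ξ.1 - 2 * ξ.2, ξ.2)
  let Vp : ZMod N × ZMod N → ZMod N × ZMod N := fun ξ => (ξ.1 + 2 * ξ.2, ξ.2)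
  have iUm : Function.Injective Um := Function.LeftInverse.injective (g := Up) (fun ξ => by simp [Um, Up])
  have iUp : Function.Injective Up := Function.LeftInverse.injective (g := Um) (fun ξ => by simp [Um, Up])
  have iVm : Function.Injective Vm := Function.LeftInverse.injective (g := Vp) (fun ξ => by simp [Vm, Vp])
  have iVp : Function.Injective Vp := Function.LeftInverse.injective (g := Vm) (fun ξ => by simp [Vm, Vp])
  have hbox' : ∀ ξ ∈ box, ξ ≠ 0 ∧ 8 * |ξ.1.valMinAbs| ≤ (N : ℤ) ∧ 8 * |ξ.2.valMinAbs| ≤ (N : ℤ) :=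
    fun ξ hξ => (Finset.mem_filter.mp hξ).2
  have vUm : ∀ ξ ∈ box, (Um ξ).2.valMinAbs = ξ.2.valMinAbs + (-2) * ξ.1.valMinAbs := by
    intro ξ hξ
    rw [← valMinAbs_shear (hbox' ξ hξ).2.2 (hbox' ξ hξ).2.1 (-2) (Or.inr rfl)]
    simp [Um, sub_eq_add_neg]
  have vUp : ∀ ξ ∈ box, (Up ξ).2.valMinAbs = ξ.2.valMinAbs + 2 * ξ.1.valMinAbs := by
    intro ξ hξ
    rw [← valMinAbs_shear (hbox' ξ hξ).2.2 (hbox' ξ hξ).2.1 2 (Or.inl rfl)]
    simp [Up]
  have vVm : ∀ ξ ∈ box, (Vm ξ).1.valMinAbs = ξ.1.valMinAbs + (-2) * ξ.2.valMinAbs := by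
    intro ξ hξ
    rw [← valMinAbs_shear (hbox' ξ hξ).2.1 (hbox' ξ hξ).2.2 (-2) (Or.inr rfl)]
    simp [Vm, sub_eq_add_neg]
  have vVp : ∀ ξ ∈ box, (Vp ξ).1.valMinAbs = ξ.1.valMinAbs + 2 * ξ.2.valMinAbs := by
    intro ξ hξ
    rw [← valMinAbs_shear (hbox' ξ hξ).2.1 (hbox' ξ hξ).2.2 2 (Or.inl rfl)]
    simp [Vp]
  have nz : ∀ ξ ∈ box, ξ.1.valMinAbs ≠ 0 ∨ ξ.2.valMinAbs ≠ 0 := by
    intro ξ hξ
    by_contra hcon
    simp only [not_or, not_not, ZMod.valMinAbs_eq_zero] at hcon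
    exact (hbox' ξ hξ).1 (Prod.ext hcon.1 hcon.2)
  -- distance between `w` and its pullbacks
  have tvm : ∀ s : Finset (ZMod N × ZMod N), ∑ ξ ∈ s, w ξ ≤ ∑ ξ ∈ s, w (Um ξ) + δ := by
    intro s
    have := hU s
    have h2 : ∑ ξ ∈ s, (w ξ - w (Um ξ)) ≤ ∑ ξ ∈ s, |w (Um ξ) - w ξ| :=
      Finset.sum_le_sum fun ξ _ => by rw [abs_sub_comm]; exact le_abs_self _
    rw [Finset.sum_sub_distrib] at h2
    have h3 : ∑ ξ ∈ s, |w (Um ξ) - w ξ| ≤ δ := this
    linarith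
  have tvp : ∀ s : Finset (ZMod N × ZMod N), ∑ ξ ∈ s, w ξ ≤ ∑ ξ ∈ s, w (Up ξ) + δ := by
    intro s
    have := hU (s.image Up)
    rw [Finset.sum_image iUp.injOn] at this
    have h2 : ∑ ξ ∈ s, (w ξ - w (Up ξ)) ≤ ∑ ξ ∈ s, |w ((Up ξ).1, (Up ξ).2 - 2 * (Up ξ).1) - w (Up ξ)| :=
      Finset.sum_le_sum fun ξ _ => by simp [Up, le_abs_self]
    rw [Finset.sum_sub_distrib] at h2
    linarith
  have twm : ∀ s : Finset (ZMod N × ZMod N), ∑ ξ ∈ s, w ξ ≤ ∑ ξ ∈ s, w (Vm ξ) + δ := by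
    intro s
    have := hV s
    have h2 : ∑ ξ ∈ s, (w ξ - w (Vm ξ)) ≤ ∑ ξ ∈ s, |w (Vm ξ) - w ξ| :=
      Finset.sum_le_sum fun ξ _ => by rw [abs_sub_comm]; exact le_abs_self _
    rw [Finset.sum_sub_distrib] at h2
    have h3 : ∑ ξ ∈ s, |w (Vm ξ) - w ξ| ≤ δ := this
    linarith
  have twp : ∀ s : Finset (ZMod N × ZMod N), ∑ ξ ∈ s, w ξ ≤ ∑ ξ ∈ s, w (Vp ξ) + δ := by
    intro s
    have := hV (s.image Vp)
    rw [Finset.sum_image iVp.injOn] at this
    have h2 : ∑ ξ ∈ s, (w ξ - w (Vp ξ)) ≤ ∑ ξ ∈ s, |w ((Vp ξ).1 - 2 * (Vp ξ).2, (Vp ξ).2) - w (Vp ξ)| :=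
      Finset.sum_le_sum fun ξ _ => by simp [Vp, le_abs_self]
    rw [Finset.sum_sub_distrib] at h2
    linarith
  -- the first coordinate dominant: sheared into the second dominant
  have e1 : ∑ ξ ∈ Ab, w (Um ξ) + ∑ ξ ∈ Ab, w (Up ξ) ≤ ∑ ξ ∈ B, w ξ := by
    refine sum_two_images_le hw Um Up iUm.injOn iUp.injOn ?_ ?_ ?_
    · intro ξ hξ
      obtain ⟨hb, hc⟩ := Finset.mem_filter.mp hξ
      simp only [hB, Finset.mem_filter, Finset.mem_univ, true_and]
      rw [vUm ξ hb]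
      rw [show (Um ξ).1 = ξ.1 from rfl]
      simp only [Int.abs_eq_natAbs] at *
      omega
    · intro ξ hξ
      obtain ⟨hb, hc⟩ := Finset.mem_filter.mp hξ
      simp only [hB, Finset.mem_filter, Finset.mem_univ, true_and]
      rw [vUp ξ hb]
      rw [show (Up ξ).1 = ξ.1 from rfl]
      simp only [Int.abs_eq_natAbs] at *
      omega
    · intro ξ hξ η hη he
      obtain ⟨hb, hc⟩ := Finset.mem_filter.mp hξ
      obtain ⟨hb', hc'⟩ := Finset.mem_filter.mp hη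
      have h1 : ξ.1 = η.1 := by simpa [Um, Up] using congrArg Prod.fst he
      have h2 := congrArg (fun t : ZMod N × ZMod N => t.2.valMinAbs) he
      simp only [vUm ξ hb, vUp η hb'] at h2
      rw [← h1] at h2 hc'
      simp only [Int.abs_eq_natAbs] at *
      omega
  have e2 : ∑ ξ ∈ Bb, w (Vm ξ) + ∑ ξ ∈ Bb, w (Vp ξ) ≤ ∑ ξ ∈ A, w ξ := by
    refine sum_two_images_le hw Vm Vp iVm.injOn iVp.injOn ?_ ?_ ?_
    · intro ξ hξ
      obtain ⟨hb, hc⟩ := Finset.mem_filter.mp hξ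
      simp only [hA, Finset.mem_filter, Finset.mem_univ, true_and]
      rw [vVm ξ hb]
      rw [show (Vm ξ).2 = ξ.2 from rfl]
      simp only [Int.abs_eq_natAbs] at *
      omega
    · intro ξ hξ
      obtain ⟨hb, hc⟩ := Finset.mem_filter.mp hξ
      simp only [hA, Finset.mem_filter, Finset.mem_univ, true_and]
      rw [vVp ξ hb]
      rw [show (Vp ξ).2 = ξ.2 from rfl]
      simp only [Int.abs_eq_natAbs] at *
      omega
    · intro ξ hξ η hη he
      obtain ⟨hb, hc⟩ := Finset.mem_filter.mp hξ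
      obtain ⟨hb', hc'⟩ := Finset.mem_filter.mp hη
      have h1 : ξ.2 = η.2 := by simpa [Vm, Vp] using congrArg Prod.snd he
      have h2 := congrArg (fun t : ZMod N × ZMod N => t.1.valMinAbs) he
      simp only [vVm ξ hb, vVp η hb'] at h2
      rw [← h1] at h2 hc'
      simp only [Int.abs_eq_natAbs] at *
      omega
  -- the two diagonals: sheared into first-coordinate dominant
  have e3 : ∑ ξ ∈ Dp, w (Vp ξ) ≤ ∑ ξ ∈ A, w ξ := by
    refine sum_image_le hw Vp iVp.injOn ?_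
    intro ξ hξ
    obtain ⟨hb, hc⟩ := Finset.mem_filter.mp hξ
    simp only [hA, Finset.mem_filter, Finset.mem_univ, true_and]
    rw [vVp ξ hb, show (Vp ξ).2 = ξ.2 from rfl]
    have := nz ξ hb
    simp only [Int.abs_eq_natAbs] at *
    omega
  have e4 : ∑ ξ ∈ Dm, w (Vm ξ) ≤ ∑ ξ ∈ A, w ξ := by
    refine sum_image_le hw Vm iVm.injOn ?_
    intro ξ hξ
    obtain ⟨hb, hc⟩ := Finset.mem_filter.mp hξ
    simp only [hA, Finset.mem_filter, Finset.mem_univ, true_and]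
    rw [vVm ξ hb, show (Vm ξ).2 = ξ.2 from rfl]
    have := nz ξ hb
    simp only [Int.abs_eq_natAbs] at *
    omega
  have eA : ∑ ξ ∈ A, w ξ ≤ ∑ ξ ∈ Ab, w ξ + ∑ ξ ∈ O, w ξ := by
    calc ∑ ξ ∈ A, w ξ ≤ ∑ ξ ∈ Ab ∪ O, w ξ := by
          refine Finset.sum_le_sum_of_subset_of_nonneg ?_ (fun η _ _ => hw η)
          intro ξ hξ
          have hξ' := (Finset.mem_filter.mp hξ).2
          have hne : ξ ≠ 0 := by rintro rfl; simp at hξ'
          by_cases ho : ξ ∈ O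
          · exact Finset.mem_union_right _ ho
          · refine Finset.mem_union_left _ ?_
            simp only [hO, Finset.mem_filter, Finset.mem_univ, true_and, not_or, not_lt] at ho
            simp [hAb, hbox, hne, ho.1, ho.2, hξ']
      _ ≤ _ := by
          rw [← Finset.sum_union_inter]
          have : 0 ≤ ∑ ξ ∈ Ab ∩ O, w ξ := Finset.sum_nonneg fun η _ => hw η
          linarith
  have eB : ∑ ξ ∈ B, w ξ ≤ ∑ ξ ∈ Bb, w ξ + ∑ ξ ∈ O, w ξ := by
    calc ∑ ξ ∈ B, w ξ ≤ ∑ ξ ∈ Bb ∪ O, w ξ := by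
          refine Finset.sum_le_sum_of_subset_of_nonneg ?_ (fun η _ _ => hw η)
          intro ξ hξ
          have hξ' := (Finset.mem_filter.mp hξ).2
          have hne : ξ ≠ 0 := by rintro rfl; simp at hξ'
          by_cases ho : ξ ∈ O
          · exact Finset.mem_union_right _ ho
          · refine Finset.mem_union_left _ ?_
            simp only [hO, Finset.mem_filter, Finset.mem_univ, true_and, not_or, not_lt] at ho
            simp [hBb, hbox, hne, ho.1, ho.2, hξ']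
      _ ≤ _ := by
          rw [← Finset.sum_union_inter]
          have : 0 ≤ ∑ ξ ∈ Bb ∩ O, w ξ := Finset.sum_nonneg fun η _ => hw η
          linarith
  have etot : ∑ ξ, w ξ ≤ ∑ ξ ∈ O, w ξ + ∑ ξ ∈ Ab, w ξ + ∑ ξ ∈ Bb, w ξ + ∑ ξ ∈ Dp, w ξ
      + ∑ ξ ∈ Dm, w ξ := by
    have hrest : ∀ ξ, w ξ ≤ (if ξ ∈ O then w ξ else 0) + (if ξ ∈ Ab then w ξ else 0)
        + (if ξ ∈ Bb then w ξ else 0) + (if ξ ∈ Dp then w ξ else 0) + (if ξ ∈ Dm then w ξ else 0) := by
      intro ξ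
      have n1 : (0 : ℝ) ≤ w ξ := hw ξ
      by_cases hz : ξ = 0
      · subst hz; rw [h0]; split_ifs <;> simp
      · by_cases ho : ξ ∈ O
        · rw [if_pos ho]; split_ifs <;> linarith
        · have hmem : ξ ∈ box := by
            simp only [hO, Finset.mem_filter, Finset.mem_univ, true_and, not_or, not_lt] at ho
            simp [hbox, hz, ho.1, ho.2]
          rcases lt_trichotomy |ξ.1.valMinAbs| |ξ.2.valMinAbs| with h | h | h
          · have : ξ ∈ Bb := Finset.mem_filter.mpr ⟨hmem, h⟩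
            rw [if_pos this]; split_ifs <;> linarith
          · rcases abs_eq_abs.mp h with h | h
            · have : ξ ∈ Dp := Finset.mem_filter.mpr ⟨hmem, h⟩
              rw [if_pos this]; split_ifs <;> linarith
            · have : ξ ∈ Dm := Finset.mem_filter.mpr ⟨hmem, h⟩
              rw [if_pos this]; split_ifs <;> linarith
          · have : ξ ∈ Ab := Finset.mem_filter.mpr ⟨hmem, h⟩
            rw [if_pos this]; split_ifs <;> linarith
    refine (Finset.sum_le_sum fun ξ _ => hrest ξ).trans (le_of_eq ?_)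
    simp [Finset.sum_add_distrib, Finset.sum_ite_mem]
  have a1 := tvm Ab
  have a2 := tvp Ab
  have b1 := twm Bb
  have b2 := twp Bb
  have d1 := twp Dp
  have d2 := twm Dm
  have p1 : 0 ≤ ∑ ξ ∈ Ab, w ξ := Finset.sum_nonneg fun η _ => hw η
  have p2 : 0 ≤ ∑ ξ ∈ Bb, w ξ := Finset.sum_nonneg fun η _ => hw η
  have p3 : 0 ≤ ∑ ξ ∈ O, w ξ := Finset.sum_nonneg fun η _ => hw η
  linarith

end Fourier

end

end Vale.Agent.P090
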