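import Vale.Agent.P090.Core
import Vale.Agent.P090.FreeSpace

/-!
A uniformly discrete metric space whose Lipschitz-free space fails the bounded approximation
property.
-/

namespace Vale.Agent.P090

open scoped Classical
open Finset

noncomputable section

set_option maxSynthPendingDepth 3

/-- The parameters of component `l`. -/
def params (l : ℕ) : Par where
  J := 100 * (l + 1)
  ρ := 10000000 * (l + 1)
  R := (10000000 * (l + 1)) ^ 2
  q := 4 * 3 ^ ((10000000 * (l + 1)) ^ 2 + 4) + 1
  p i := Nat.nth Nat.Prime (i + (4 * 3 ^ ((10000000 * (l + 1)) ^ 2 + 4) + 1) + 10000000 * (l + 1))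
  one_le_ρ := by omega
  sq_le_R := le_rfl
  hq := Nat.lt_succ_self _
  p_prime i := Nat.prime_nth_prime _
  p_inj a b h := by
    have := (Nat.nth_strictMono Nat.infinite_setOfPred_prime).injective h
    omega
  q_lt_p i := by
    refine lt_of_lt_of_le ?_ (Nat.add_two_le_nth_prime _)
    omega
  ρ_le_p i := by
    refine le_trans ?_ (Nat.add_two_le_nth_prime _)
    omega

/-- The space of the counterexample. -/
abbrev Space : Type := Pt params

/-- Its base point. -/
def origin : Space := pt params 0 ((params 0).base (1, 1))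

/-- A point evaluation as an element of the free space. -/
def diracIn {M : Type} [MetricSpace M] (o x : M) : FreeSpace M o :=
  ⟨dirac M o x, Submodule.le_topologicalClosure _ (Submodule.subset_span ⟨x, rfl⟩)⟩

theorem norm_diracIn_sub {M : Type} [MetricSpace M] (o x y : M) :
    ‖diracIn o x - diracIn o y‖ = dist x y :=
  norm_dirac_sub x y

theorem norm_diracIn {M : Type} [MetricSpace M] (o x : M) : ‖diracIn o x‖ = dist x o := by
  have h0 : diracIn o o = 0 := Subtype.ext (ContinuousLinearMap.ext fun f => Lip0.val_base f)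
  have := norm_diracIn_sub o x o
  rw [h0, sub_zero] at this
  exact this

/-- Bounded sets in the range of a finite-rank operator are almost finitely supported. -/
theorem exists_finite_support {M : Type} [MetricSpace M] (o : M)
    (T : FreeSpace M o →L[ℝ] FreeSpace M o) (hT : FiniteDimensional ℝ T.toLinearMap.range)
    (r : ℝ) {η : ℝ} (hη : 0 < η) :
    ∃ G : Finset M, ∀ u : FreeSpace M o, ‖u‖ ≤ r → ∃ c : M → ℝ,
      ‖((T u : FreeSpace M o) : StrongDual ℝ (Lip0 M o)) - ∑ x ∈ G, c x • dirac M o x‖ ≤ η := by
  set W := T.toLinearMap.range with hW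
  have : FiniteDimensional ℝ W := hT
  have : ProperSpace W := FiniteDimensional.proper ℝ W
  obtain ⟨t, ht, hcover⟩ := Metric.totallyBounded_iff.mp
    (isCompact_closedBall (0 : W) (‖T‖ * max r 0)).totallyBounded (η / 2) (half_pos hη)
  have happ : ∀ w : W, ∃ c : M →₀ ℝ,
      ‖((w : FreeSpace M o) : StrongDual ℝ (Lip0 M o)) - c.sum (fun x a => a • dirac M o x)‖
        ≤ η / 2 := by
    intro w
    have hmem : ((w : FreeSpace M o) : StrongDual ℝ (Lip0 M o)) ∈
        closure (Submodule.span ℝ (Set.range (dirac M o)) : Set (StrongDual ℝ (Lip0 M o))) :=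
      (w : FreeSpace M o).2
    obtain ⟨v, hv, hd⟩ := Metric.mem_closure_iff.mp hmem (η / 2) (half_pos hη)
    obtain ⟨c, hc⟩ := Finsupp.mem_span_range_iff_exists_finsupp.mp hv
    refine ⟨c, ?_⟩
    rw [hc, ← dist_eq_norm]
    exact hd.le
  choose c hc using happ
  refine ⟨ht.toFinset.biUnion fun w => (c w).support, fun u hu => ?_⟩
  set Tu : W := ⟨T u, LinearMap.mem_range_self _ u⟩ with hTu
  have hb : Tu ∈ Metric.closedBall (0 : W) (‖T‖ * max r 0) := by
    rw [mem_closedBall_zero_iff]
    exact (T.le_opNorm u).trans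
      (mul_le_mul_of_nonneg_left (hu.trans (le_max_left r 0)) (norm_nonneg T))
  obtain ⟨w, hw, hdist⟩ := Set.mem_iUnion₂.mp (hcover hb)
  refine ⟨c w, ?_⟩
  have hsum : ∑ x ∈ ht.toFinset.biUnion (fun w => (c w).support), c w x • dirac M o x
      = (c w).sum (fun x a => a • dirac M o x) := by
    refine (Finsupp.sum_of_support_subset (c w) ?_ (fun x a => a • dirac M o x) (fun i _ => ?_)).symm
    swap
    · exact zero_smul ℝ _
    exact Finset.subset_biUnion_of_mem (fun w => (c w).support) (ht.mem_toFinset.mpr hw)
  rw [hsum]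
  have h1 : ‖((T u : FreeSpace M o) : StrongDual ℝ (Lip0 M o))
      - ((w : FreeSpace M o) : StrongDual ℝ (Lip0 M o))‖ ≤ η / 2 := by
    have : dist Tu w ≤ η / 2 := (Metric.mem_ball.mp hdist).le
    rw [dist_eq_norm] at this
    exact this
  calc _ ≤ _ + _ := norm_sub_le_norm_sub_add_norm_sub _
        ((w : FreeSpace M o) : StrongDual ℝ (Lip0 M o)) _
    _ ≤ η / 2 + η / 2 := add_le_add h1 (hc w)
    _ = η := by ring

/-- A function supported in component `l`, as an element of `Lip₀`. -/
def extendLip (l : ℕ) (hl : l ≠ 0) (f : (params l).Vtx → ℝ) (C : ℝ) (hC : 0 < C)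
    (hf : (params l).Good f C) : Lip0 Space origin :=
  ⟨extend params l f, extend_other params f (fun h => hl h.symm), C, hC.le,
    good_lipschitz params l hC hf⟩

theorem not_hasBAP : ¬ HasBAP (FreeSpace Space origin) := by
  rintro ⟨lam, hlam, hBAP⟩
  set l : ℕ := ⌈lam⌉₊ with hl
  have hl0 : l ≠ 0 := by
    have : 0 < lam := by linarith
    exact (Nat.ceil_pos.mpr this).ne'
  set Q := params l with hQ
  set Λ : ℝ := (l : ℝ) + 1 with hΛ
  have hlΛ : lam ≤ Λ := (Nat.le_ceil lam).trans (by rw [hΛ, hl]; exact le_add_of_nonneg_right zero_le_one)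
  have hΛ1 : 1 ≤ Λ := by simp [hΛ]
  let K : Set (FreeSpace Space origin) := Set.range fun a : Q.Base => diracIn origin (pt params l (Q.base a))
  obtain ⟨T, hTfin, hTn, hTK⟩ :=
    hBAP K (Set.finite_range _).isCompact (1 / 4) (by norm_num)
  obtain ⟨G₀, hG₀⟩ := exists_finite_support origin T hTfin
    ((Q.R : ℝ) + (params 0).R) (η := 1 / 4) (by norm_num)
  have hbd : ∀ z : Q.Vtx, ‖diracIn origin (pt params l z)‖ ≤ (Q.R : ℝ) + (params 0).R := fun z => by
    rw [norm_diracIn]
    exact dist_le_cutoff params _ _
  choose c hc using fun z => hG₀ (diracIn origin (pt params l z)) (hbd z)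
  let G : Finset Q.Vtx :=
    G₀.preimage (pt params l) (fun a _ b _ h => eq_of_heq (Sigma.mk.inj_iff.mp h).2)
  -- the approximation agrees with `T` up to `1/4` on the test functions
  have key : ∀ (z : Q.Vtx) (f : Q.Vtx → ℝ) (C : ℝ) (hC : 0 < C) (hf : Q.Good f C),
      |((T (diracIn origin (pt params l z)) : FreeSpace Space origin) : StrongDual ℝ (Lip0 Space origin))
          (extendLip l hl0 f C hC hf)
        - ∑ u ∈ G, c z (pt params l u) * f u| ≤ 1 / 4 * C := by
    intro z f C hC hf
    set F := extendLip l hl0 f C hC hf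
    have hF : ‖F‖ ≤ C := lipConst_le F hC.le (good_lipschitz params l hC hf)
    have hsum : (∑ x ∈ G₀, c z x • dirac Space origin x) F
        = ∑ u ∈ G, c z (pt params l u) * f u := by
      simp only [_root_.sum_apply, smul_eq_mul, dirac_apply,
        smul_eq_mul, FunLike.coe_smul, Pi.smul_apply]
      calc ∑ x ∈ G₀, c z x * extend params l f x
          = ∑ u ∈ G, c z (pt params l u) * extend params l f (pt params l u) := by
            refine (Finset.sum_preimage (pt params l) G₀ _ (fun x => c z x * extend params l f x) ?_).symm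
            intro x _ hx
            rw [extend_other params f, mul_zero]
            intro h
            obtain ⟨m, y⟩ := x
            dsimp only at h
            subst h
            exact hx ⟨y, rfl⟩
        _ = _ := by simp only [extend_same]
    have := ((T (diracIn origin (pt params l z)) : StrongDual ℝ (Lip0 Space origin))
      - ∑ x ∈ G₀, c z x • dirac Space origin x).le_opNorm F
    rw [sub_apply, hsum, Real.norm_eq_abs] at this
    exact this.trans (mul_le_mul (hc z) hF (norm_nonneg _) (by norm_num))
  have happly : ∀ (u : FreeSpace Space origin) (F : Lip0 Space origin),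
      |((T u : FreeSpace Space origin) : StrongDual ℝ (Lip0 Space origin)) F|
        ≤ lam * ‖u‖ * ‖F‖ := fun u F => by
    have h1 := ((T u : FreeSpace Space origin) : StrongDual ℝ (Lip0 Space origin)).le_opNorm F
    rw [Real.norm_eq_abs] at h1
    refine h1.trans (mul_le_mul_of_nonneg_right ?_ (norm_nonneg F))
    exact (T.le_opNorm u).trans (mul_le_mul_of_nonneg_right hTn (norm_nonneg u))
  have happly' : ∀ (x y : Space) (F : Lip0 Space origin) (C : ℝ), ‖F‖ ≤ C → ∀ d : ℝ, dist x y ≤ d →
      |((T (diracIn origin x) : FreeSpace Space origin) : StrongDual ℝ (Lip0 Space origin)) F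
        - ((T (diracIn origin y) : FreeSpace Space origin) : StrongDual ℝ (Lip0 Space origin)) F|
        ≤ lam * d * C := fun x y F C hF d hd => by
    have h := happly (diracIn origin x - diracIn origin y) F
    rw [norm_diracIn_sub, map_sub T (diracIn origin x) (diracIn origin y)] at h
    refine (le_trans (le_of_eq ?_) h).trans ?_
    · simp
    · exact mul_le_mul (mul_le_mul_of_nonneg_left hd (by linarith)) hF (norm_nonneg _)
        (mul_nonneg (by linarith) (dist_nonneg.trans hd))
  refine Par.no_approx (P := Q) hΛ1 ?_ ?_ ⟨G, fun z u => c z (pt params l u), ?_, ?_⟩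
  · simp [hQ, params, hΛ]
  · simp [hQ, params, hΛ]
  · intro z w hzw f C hC hf
    have k1 := key z f C hC hf
    have k2 := key w f C hC hf
    have k3 := happly' (pt params l w) (pt params l z) _ C
      (lipConst_le (extendLip l hl0 f C hC hf) hC.le (good_lipschitz params l hC hf)) 1
      (by rw [dist_comm]; exact dist_edge_le params l hzw)
    have k4 : lam * C ≤ Λ * C := mul_le_mul_of_nonneg_right hlΛ hC.le
    have k5 : C ≤ Λ * C := le_mul_of_one_le_left hC.le hΛ1
    rw [abs_le] at k1 k2 k3 ⊢
    constructor <;> linarith [k1.1, k1.2, k2.1, k2.2, k3.1, k3.2]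
  · intro i a b f C hC hf
    set F := extendLip l hl0 f C hC hf
    have hF : ‖F‖ ≤ C := lipConst_le F hC.le (good_lipschitz params l hC hf)
    have k1 := key (Q.lvl i a b) f C hC hf
    have k3 := happly' (pt params l (Q.lvl i a b)) (pt params l (Q.base a)) F C hF (Q.ρ)
      (by rw [dist_comm]; exact dist_pin_le params l i a b)
    have k2 : |((T (diracIn origin (pt params l (Q.base a))) : FreeSpace Space origin) :
        StrongDual ℝ (Lip0 Space origin)) F - f (Q.base a)| ≤ 1 / 4 * C := by
      have h := ((T (diracIn origin (pt params l (Q.base a))) - diracIn origin (pt params l (Q.base a)) :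
        FreeSpace Space origin) : StrongDual ℝ (Lip0 Space origin)).le_opNorm F
      have hv : F.val (pt params l (Q.base a)) = f (Q.base a) := extend_same params l f _
      rw [Real.norm_eq_abs, Submodule.coe_sub, sub_apply] at h
      rw [← hv]
      refine h.trans (mul_le_mul ?_ hF (norm_nonneg _) (by norm_num))
      exact (hTK _ ⟨a, rfl⟩).le
    have hρ1 : (1 : ℝ) ≤ Q.ρ := by exact_mod_cast Q.one_le_ρ
    have k4 : lam * (Q.ρ : ℝ) * C ≤ Λ * Q.ρ * C :=
      mul_le_mul_of_nonneg_right (mul_le_mul_of_nonneg_right hlΛ (by linarith)) hC.le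
    have k5 : C ≤ Λ * Q.ρ * C :=
      le_mul_of_one_le_left hC.le (by nlinarith)
    rw [abs_le] at k1 k2 k3 ⊢
    constructor <;> linarith [k1.1, k1.2, k2.1, k2.2, k3.1, k3.2]

theorem isUniformlyDiscrete_space : IsUniformlyDiscrete Space :=
  ⟨1, one_pos, fun _ _ h => uniformly_separated params h⟩

end

end Vale.Agent.P090
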