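import Vale.Agent.P090.Space

/-!
Offsets between nearby base points and the test functions built from them.
-/

namespace Vale.Agent.P090

open scoped Classical
open Finset

noncomputable section

namespace Par

variable (P : Par)

/-- The affine word map of the base. -/
abbrev posHom : FreeGroup (Fin 4) →* P.Pos := affHom (ZMod P.q)

/-- The tree word map of the base. -/
abbrev labHom : FreeGroup P.Lab →* P.Tree := treeHom P.Lab P.L

/-- Distance in the base, truncated at `2R`. -/
def bdist (a c : P.Base) : ℕ :=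
  len P.posHom P.R (c.1 * a.1⁻¹) + len P.labHom P.R (c.2⁻¹ * a.2)

/-- Nearby base points. -/
def Near (a c : P.Base) : Prop := P.bdist a c < P.R

/-- The cut-off around `a`. -/
def psi (a : P.Base) (z : P.Vtx) : ℝ := max 0 (1 - (P.bdist a (P.proj z) : ℝ) / P.R)

/-- The affine offset word. -/
def posWord (a c : P.Base) : FreeGroup (Fin 4) := liftWord P.posHom P.L (c.1 * a.1⁻¹)

/-- The tree offset word. -/
def labWord (a c : P.Base) : FreeGroup P.Lab := liftWord P.labHom P.L (c.2⁻¹ * a.2)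

/-- A fibre point at `c`, transported back to `a`. -/
def back (i : ℕ) (a c : P.Base) (b : P.Fib i) : P.Fib i :=
  (affHom (ZMod (P.p i)) (P.posWord a c))⁻¹ b

theorem R_pos : 0 < (P.R : ℝ) := by exact_mod_cast P.one_le_R

theorem ρ_pos : 0 < (P.ρ : ℝ) := by exact_mod_cast P.one_le_ρ

theorem near_words {a c : P.Base} (h : P.Near a c) :
    ∃ w u, FreeGroup.norm w ≤ P.R ∧ FreeGroup.norm u ≤ P.R ∧
      P.posHom w = c.1 * a.1⁻¹ ∧ P.labHom u = c.2⁻¹ * a.2 := by
  simp only [Near, bdist] at h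
  obtain ⟨w, hw, hw'⟩ := exists_of_len_lt P.posHom P.R (h := c.1 * a.1⁻¹) (by omega)
  obtain ⟨u, hu, hu'⟩ := exists_of_len_lt P.labHom P.R (h := c.2⁻¹ * a.2) (by omega)
  exact ⟨w, u, by omega, by omega, hw', hu'⟩

theorem posWord_eq {a c : P.Base} {w : FreeGroup (Fin 4)} (hn : FreeGroup.norm w ≤ P.L)
    (hw : P.posHom w = c.1 * a.1⁻¹) (i : ℕ) :
    affHom (ZMod (P.p i)) (P.posWord a c) = affHom (ZMod (P.p i)) w := by
  obtain ⟨h1, h2⟩ := liftWord_spec P.posHom P.L hn hw
  exact affHom_local P.hq h1 hn (h2.trans hw.symm) _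

theorem labWord_eq {a c : P.Base} {u : FreeGroup P.Lab} (hn : FreeGroup.norm u ≤ P.L)
    (hu : P.labHom u = c.2⁻¹ * a.2) : P.labWord a c = u := by
  obtain ⟨h1, h2⟩ := liftWord_spec P.labHom P.L hn hu
  exact treeHom_inj P.Lab P.L h1 hn (h2.trans hu.symm)

theorem back_same {a c : P.Base} (h : c.1 = a.1) (i : ℕ) (b : P.Fib i) : P.back i a c b = b := by
  have e := P.posWord_eq (a := a) (c := c) (w := 1) (by simp) (by simp [h]) i
  simp [back, e]

theorem back_sMove {a c : P.Base} (h : P.Near a c) (s : Fin 4) (i : ℕ) (b : P.Fib i) :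
    P.back i a (P.sMove s c) (affMap s b) = P.back i a c b := by
  obtain ⟨w, u, hw, -, hw', -⟩ := P.near_words h
  have hn : FreeGroup.norm (FreeGroup.of s * w) ≤ P.L := by
    have := FreeGroup.norm_mul_le (FreeGroup.of s) w
    simp [L, FreeGroup.norm_of] at *
    omega
  have e1 := P.posWord_eq (a := a) (c := P.sMove s c) hn
    (by simp [sMove, map_mul, hw', mul_assoc]) i
  have e2 := P.posWord_eq (a := a) (c := c) (w := w) (by simp [L]; omega) hw' i
  have e3 : affHom (ZMod (P.p i)) (FreeGroup.of s) b = affMap s b := by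
    simp [affHom, affPerm_apply]
  simp [back, e1, e2, map_mul, Equiv.Perm.mul_apply, ← e3]

theorem back_obs {a c : P.Base} (h : P.Near a c) (s : Fin 4) (i : ℕ) (b : P.Fib i) :
    P.back i (P.sMove s a) c b = affMap s (P.back i a c b) := by
  obtain ⟨w, u, hw, -, hw', -⟩ := P.near_words h
  have hn : FreeGroup.norm (w * (FreeGroup.of s)⁻¹) ≤ P.L := by
    have := FreeGroup.norm_mul_le w (FreeGroup.of s)⁻¹
    simp [L, FreeGroup.norm_of] at *
    omega
  have e1 := P.posWord_eq (a := P.sMove s a) (c := c) hn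
    (by simp [sMove, map_mul, hw', mul_assoc]) i
  have e2 := P.posWord_eq (a := a) (c := c) (w := w) (by simp [L]; omega) hw' i
  have e3 : ∀ x : P.Fib i, affHom (ZMod (P.p i)) (FreeGroup.of s) x = affMap s x := fun x => by
    simp [affHom, affPerm_apply]
  simp [back, e1, e2, map_mul, Equiv.Perm.mul_apply, ← e3]

theorem back_fst_eq {a a' c c' : P.Base} (ha : a'.1 = a.1) (hc : c'.1 = c.1) (i : ℕ) (b : P.Fib i) :
    P.back i a' c' b = P.back i a c b := by
  simp [back, posWord, ha, hc]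

theorem labWord_fst {a c : P.Base} (s : Fin 4) :
    P.labWord a (P.sMove s c) = P.labWord a c ∧ P.labWord (P.sMove s a) c = P.labWord a c := by
  simp [labWord, sMove]

theorem labWord_tMove {a c : P.Base} (h : P.Near a c) (j : Fin P.J) :
    P.labWord a (P.tMove j c) = FreeGroup.mk [((c.1, j), false)] * P.labWord a c := by
  obtain ⟨w, u, -, hu, -, hu'⟩ := P.near_words h
  have hx : FreeGroup.mk [(((c.1, j) : P.Lab), false)] = (FreeGroup.of ((c.1, j) : P.Lab))⁻¹ := by
    rw [FreeGroup.of, FreeGroup.inv_mk]; rfl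
  rw [hx, P.labWord_eq (u := u) (by simp [L]; omega) hu']
  refine P.labWord_eq ?_ ?_
  · have := FreeGroup.norm_mul_le (FreeGroup.of ((c.1, j) : P.Lab))⁻¹ u
    simp [L, FreeGroup.norm_of] at *
    omega
  · simp [tMove, map_mul, hu', mul_assoc]

theorem labWord_obs {a c : P.Base} (h : P.Near a c) (j : Fin P.J) :
    P.labWord (P.tMove j a) c = P.labWord a c * FreeGroup.of (a.1, j) := by
  obtain ⟨w, u, -, hu, -, hu'⟩ := P.near_words h
  rw [P.labWord_eq (u := u) (by simp [L]; omega) hu']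
  refine P.labWord_eq ?_ ?_
  · have := FreeGroup.norm_mul_le u (FreeGroup.of ((a.1, j) : P.Lab))
    simp [L, FreeGroup.norm_of] at *
    omega
  · simp [tMove, map_mul, hu', mul_assoc]

theorem bdist_self (a : P.Base) : P.bdist a a = 0 := by simp [bdist, len_one]

theorem bdist_sMove (a c : P.Base) (s : Fin 4) :
    P.bdist a (P.sMove s c) ≤ P.bdist a c + 1 ∧ P.bdist a c ≤ P.bdist a (P.sMove s c) + 1 := by
  have h1 := len_mul_le P.posHom P.R (FreeGroup.of s) 1 (c.1 * a.1⁻¹)
  have h2 := len_mul_le P.posHom P.R (FreeGroup.of s)⁻¹ 1 ((P.sMove s c).1 * a.1⁻¹)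
  simp [posHom, sMove, mul_assoc, FreeGroup.norm_of] at h1 h2
  simp [posHom, bdist, sMove, mul_assoc]
  omega

theorem bdist_obs (a c : P.Base) (s : Fin 4) :
    P.bdist (P.sMove s a) c ≤ P.bdist a c + 1 ∧ P.bdist a c ≤ P.bdist (P.sMove s a) c + 1 := by
  have h1 := len_mul_le P.posHom P.R 1 (FreeGroup.of s)⁻¹ (c.1 * a.1⁻¹)
  have h2 := len_mul_le P.posHom P.R 1 (FreeGroup.of s) (c.1 * (P.sMove s a).1⁻¹)
  simp [posHom, sMove, mul_assoc, FreeGroup.norm_of] at h1 h2
  simp [posHom, bdist, sMove, mul_assoc]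
  omega

theorem bdist_tMove (a c : P.Base) (j : Fin P.J) :
    P.bdist a (P.tMove j c) ≤ P.bdist a c + 1 ∧ P.bdist a c ≤ P.bdist a (P.tMove j c) + 1 := by
  have h1 := len_mul_le P.labHom P.R (FreeGroup.of (c.1, j))⁻¹ 1 (c.2⁻¹ * a.2)
  have h2 := len_mul_le P.labHom P.R (FreeGroup.of (c.1, j)) 1 ((P.tMove j c).2⁻¹ * a.2)
  simp [labHom, tMove, mul_assoc, FreeGroup.norm_of] at h1 h2
  simp [labHom, bdist, tMove, mul_assoc]
  omega

theorem bdist_tobs (a c : P.Base) (j : Fin P.J) :
    P.bdist (P.tMove j a) c ≤ P.bdist a c + 1 ∧ P.bdist a c ≤ P.bdist (P.tMove j a) c + 1 := by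
  have h1 := len_mul_le P.labHom P.R 1 (FreeGroup.of (a.1, j)) (c.2⁻¹ * a.2)
  have h2 := len_mul_le P.labHom P.R 1 (FreeGroup.of (a.1, j))⁻¹ (c.2⁻¹ * (P.tMove j a).2)
  simp [labHom, tMove, mul_assoc, FreeGroup.norm_of] at h1 h2
  simp [labHom, bdist, tMove, mul_assoc]
  omega

theorem psi_nonneg (a : P.Base) (z : P.Vtx) : 0 ≤ P.psi a z := le_max_left _ _

theorem psi_le_one (a : P.Base) (z : P.Vtx) : P.psi a z ≤ 1 := by
  have : (0 : ℝ) ≤ (P.bdist a (P.proj z) : ℝ) / P.R := by positivity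
  exact max_le zero_le_one (by linarith)

theorem psi_far {a : P.Base} {z : P.Vtx} (h : ¬ P.Near a (P.proj z)) : P.psi a z = 0 := by
  simp only [Near, not_lt] at h
  rw [psi, max_eq_left]
  rw [sub_nonpos, one_le_div P.R_pos]
  exact_mod_cast h

theorem psi_diff {a a' : P.Base} {z z' : P.Vtx}
    (h : P.bdist a' (P.proj z') ≤ P.bdist a (P.proj z) + 1 ∧
      P.bdist a (P.proj z) ≤ P.bdist a' (P.proj z') + 1) :
    |P.psi a' z' - P.psi a z| ≤ 1 / P.R := by
  simp only [psi]
  rw [max_comm 0, max_comm 0]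
  refine (abs_max_sub_max_le_abs _ _ _).trans ?_
  rw [show (1 - (P.bdist a' (P.proj z') : ℝ) / P.R) - (1 - (P.bdist a (P.proj z) : ℝ) / P.R)
        = ((P.bdist a (P.proj z) : ℝ) - P.bdist a' (P.proj z')) / P.R by ring,
    abs_div, abs_of_pos P.R_pos]
  gcongr
  rw [abs_le]
  constructor
  · have : (P.bdist a' (P.proj z') : ℝ) ≤ P.bdist a (P.proj z) + 1 := by exact_mod_cast h.1
    linarith
  · have : (P.bdist a (P.proj z) : ℝ) ≤ P.bdist a' (P.proj z') + 1 := by exact_mod_cast h.2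
    linarith

theorem edge_bdist (a : P.Base) {z w : P.Vtx} (h : P.Edge z w) :
    P.bdist a (P.proj w) ≤ P.bdist a (P.proj z) + 1 ∧
      P.bdist a (P.proj z) ≤ P.bdist a (P.proj w) + 1 := by
  rcases h with ⟨i, c, b, s, rfl, rfl⟩ | ⟨i, c, b, j, -, rfl, rfl⟩
  · exact P.bdist_sMove a c s
  · exact P.bdist_tMove a c j

/-- A test function centred at `a`. -/
def test (a : P.Base) (v : P.Vtx → ℝ) (z : P.Vtx) : ℝ := P.psi a z * v z

/-- Functions that are constant along the short edges near `a`. -/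
def Inv (a : P.Base) (v : P.Vtx → ℝ) : Prop :=
  (∀ z, |v z| ≤ 1) ∧
    ∀ z w, P.Edge z w → P.Near a (P.proj z) → P.Near a (P.proj w) → v z = v w

theorem test_abs_le (a : P.Base) {v : P.Vtx → ℝ} (hv : ∀ z, |v z| ≤ 1) (z : P.Vtx) :
    |P.test a v z| ≤ P.psi a z := by
  rw [test, abs_mul, abs_of_nonneg (P.psi_nonneg a z)]
  exact mul_le_of_le_one_right (P.psi_nonneg a z) (hv z)

theorem test_diff {a a' : P.Base} {z z' : P.Vtx} {v v' : P.Vtx → ℝ}
    (hd : P.bdist a' (P.proj z') ≤ P.bdist a (P.proj z) + 1 ∧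
      P.bdist a (P.proj z) ≤ P.bdist a' (P.proj z') + 1)
    (hv : ∀ z, |v z| ≤ 1) (hv' : ∀ z, |v' z| ≤ 1)
    (heq : P.Near a (P.proj z) → P.Near a' (P.proj z') → v' z' = v z) :
    |P.test a' v' z' - P.test a v z| ≤ 1 / P.R := by
  have hp := P.psi_diff hd
  by_cases h : P.Near a (P.proj z)
  · by_cases h' : P.Near a' (P.proj z')
    · rw [test, test, heq h h', ← sub_mul, abs_mul]
      exact le_trans (mul_le_of_le_one_right (abs_nonneg _) (hv z)) hp
    · rw [test, test, P.psi_far h', zero_mul, zero_sub, abs_neg]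
      rw [P.psi_far h', zero_sub, abs_neg, abs_of_nonneg (P.psi_nonneg a z)] at hp
      exact (P.test_abs_le a hv z).trans hp
  · rw [test, test, P.psi_far h, zero_mul, sub_zero]
    rw [P.psi_far h, sub_zero, abs_of_nonneg (P.psi_nonneg a' z')] at hp
    exact (P.test_abs_le a' hv' z').trans hp

theorem inv_R_le : 1 / (P.R : ℝ) ≤ 2 / P.ρ := by
  have h := P.ρ_pos
  have h' : (P.ρ : ℝ) ≤ P.R := by exact_mod_cast P.ρ_le_R
  calc 1 / (P.R : ℝ) ≤ 1 / P.ρ := one_div_le_one_div_of_le h h'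
    _ ≤ _ := by gcongr; norm_num

theorem good_test {a : P.Base} {v : P.Vtx → ℝ} (hv : P.Inv a v) :
    P.Good (P.test a v) (2 / P.ρ) := by
  have hone : ∀ z, |P.test a v z| ≤ 1 := fun z => (P.test_abs_le a hv.1 z).trans (P.psi_le_one a z)
  refine ⟨fun z => ?_, fun z w h => ?_, fun i c b => ?_⟩
  · refine (hone z).trans ?_
    rw [div_mul_eq_mul_div, le_div_iff₀ P.ρ_pos]
    have : (P.ρ : ℝ) ≤ P.R := by exact_mod_cast P.ρ_le_R
    linarith [P.R_pos]
  · refine (P.test_diff ?_ hv.1 hv.1 fun h1 h2 => hv.2 z w h h2 h1).trans P.inv_R_le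
    exact (P.edge_bdist a h).symm
  · rw [div_mul_cancel₀ _ P.ρ_pos.ne']
    linarith [abs_sub (P.test a v (P.base c)) (P.test a v (P.lvl i c b)), hone (P.base c),
      hone (P.lvl i c b)]

theorem good_small {g : P.Vtx → ℝ} (hg : ∀ z, |g z| ≤ 1 / P.R) : P.Good g (2 / P.R) := by
  have hR := P.R_pos
  have hρ : (1 : ℝ) ≤ P.ρ := by exact_mod_cast P.one_le_ρ
  have h2 : ∀ z w, |g z - g w| ≤ 2 / P.R := fun z w => by
    calc |g z - g w| ≤ |g z| + |g w| := abs_sub _ _
      _ ≤ 1 / P.R + 1 / P.R := add_le_add (hg z) (hg w)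
      _ = _ := by ring
  refine ⟨fun z => (hg z).trans ?_, fun z w _ => h2 z w, fun i c b => (h2 _ _).trans ?_⟩
  · rw [div_mul_cancel₀ _ hR.ne']
    rw [div_le_iff₀ hR]
    have : (1 : ℝ) ≤ P.R := by exact_mod_cast P.one_le_R
    linarith
  · exact le_mul_of_one_le_right (by positivity) hρ

theorem good_psi (a : P.Base) : P.Good (P.psi a) (1 / P.R) := by
  refine ⟨fun z => ?_, fun z w h => P.psi_diff (P.edge_bdist a h).symm, fun i c b => ?_⟩
  · rw [abs_of_nonneg (P.psi_nonneg a z), one_div_mul_cancel P.R_pos.ne']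
    exact P.psi_le_one a z
  · have : P.psi a (P.base c) = P.psi a (P.lvl i c b) := rfl
    rw [this, sub_self, abs_zero]
    positivity

/-- A function of the transported fibre coordinate, on the levels below `n`. -/
def lvlFun (n : ℕ) (σ : (Σ i, P.Fib i) → ℝ) (a : P.Base) : P.Vtx → ℝ
  | Sum.inl _ => 0
  | Sum.inr ⟨i, (c, b)⟩ => if i < n then σ ⟨i, P.back i a c b⟩ else 0

theorem lvlFun_inv (n : ℕ) {σ : (Σ i, P.Fib i) → ℝ} (hσ : ∀ x, |σ x| ≤ 1) (a : P.Base) :
    P.Inv a (P.lvlFun n σ a) := by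
  refine ⟨fun z => ?_, fun z w h hz _ => ?_⟩
  · rcases z with c | ⟨i, c, b⟩
    · simp [lvlFun]
    · simp only [lvlFun]; split_ifs <;> simp [hσ]
  · rcases h with ⟨i, c, b, s, rfl, rfl⟩ | ⟨i, c, b, j, -, rfl, rfl⟩
    · have hz' : P.Near a c := hz
      simp [lvlFun, P.back_sMove hz']
    · simp [lvlFun, P.back_fst_eq (a := a) (a' := a) (c := c) (c' := P.tMove j c) rfl rfl]

/-- The weight whose total is computed in two ways. -/
def weight (n : ℕ) (a : P.Base) : P.Vtx → ℝ
  | Sum.inl _ => 1 / 2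
  | Sum.inr ⟨i, (c, b)⟩ => if i < n ∧ P.Hole i (P.back i a c b) then 1 else 0

theorem weight_abs_le (n : ℕ) (a : P.Base) (z : P.Vtx) : |P.weight n a z| ≤ 1 := by
  rcases z with c | ⟨i, c, b⟩
  · simp [weight]; norm_num
  · simp only [weight]; split_ifs <;> simp

theorem weight_inv (n : ℕ) (a : P.Base) {z w : P.Vtx} (h : P.Edge z w) (hz : P.Near a (P.proj z)) :
    P.weight n a w = P.weight n a z := by
  rcases h with ⟨i, c, b, s, rfl, rfl⟩ | ⟨i, c, b, j, -, rfl, rfl⟩
  · have hz' : P.Near a c := hz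
    simp [weight, P.back_sMove hz']
  · simp [weight, P.back_fst_eq (a := a) (a' := a) (c := c) (c' := P.tMove j c) rfl rfl]

/-- The part of the weight lying in a given direction in the tree. -/
def branch (n : ℕ) (σ : Bool) (j : Fin P.J) (a : P.Base) (z : P.Vtx) : ℝ :=
  if dir (P.labWord a (P.proj z)) = some ((a.1, j), σ) then P.weight n a z else 0

theorem branch_abs_le (n : ℕ) (σ : Bool) (j : Fin P.J) (a : P.Base) (z : P.Vtx) :
    |P.branch n σ j a z| ≤ 1 := by
  simp only [branch]; split_ifs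
  · exact P.weight_abs_le n a z
  · simp

theorem branch_inv (n : ℕ) (σ : Bool) (j : Fin P.J) (a : P.Base) :
    P.Inv a (P.branch n σ j a) := by
  refine ⟨P.branch_abs_le n σ j a, fun z w h hz _ => ?_⟩
  have hwt := P.weight_inv n a h hz
  rcases h with ⟨i, c, b, s, rfl, rfl⟩ | ⟨i, c, b, k, hb, rfl, rfl⟩
  · have hu : P.labWord a (P.proj (P.lvl i (P.sMove s c) (affMap s b)))
        = P.labWord a (P.proj (P.lvl i c b)) := (P.labWord_fst (a := a) (c := c) s).1
    simp only [branch, hwt]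
    exact if_congr (by rw [hu]) rfl rfl
  · have hu : P.labWord a (P.proj (P.lvl i (P.tMove k c) b))
        = FreeGroup.mk [(((c.1, k) : P.Lab), false)] * P.labWord a c := P.labWord_tMove hz k
    simp only [branch, hwt]
    by_cases hc : c.1 = a.1
    · have h0 : P.weight n a (P.lvl i c b) = 0 := by
        simp [weight, P.back_same hc i b, hb]
      simp [h0]
    · refine if_congr ?_ rfl rfl
      rw [hu]
      change dir (P.labWord a c) = _ ↔ _
      rcases dir_letter_mul (((c.1, k) : P.Lab), false) (P.labWord a c) with e | e | e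
      · rw [e]
      · rw [e, mul_one, dir_one]
        simp [dir, FreeGroup.toWord_mk, hc]
      · rw [e, dir_one]
        have hx : P.labWord a c = FreeGroup.of ((c.1, k) : P.Lab) := by
          have hinv : FreeGroup.mk [(((c.1, k) : P.Lab), false)]
              = (FreeGroup.of ((c.1, k) : P.Lab))⁻¹ := by
            rw [FreeGroup.of, FreeGroup.inv_mk]; rfl
          rw [hinv] at e
          exact (inv_mul_eq_one.mp e).symm
        rw [hx]
        simp [dir, hc]

/-- The total weight in all forward (or backward) directions. -/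
def branches (n : ℕ) (σ : Bool) (a : P.Base) (z : P.Vtx) : ℝ := ∑ j, P.branch n σ j a z

theorem branches_inv (n : ℕ) (σ : Bool) (a : P.Base) : P.Inv a (P.branches n σ a) := by
  refine ⟨fun z => ?_, fun z w h hz hw => ?_⟩
  · simp only [branches]
    by_cases hj : ∃ j, dir (P.labWord a (P.proj z)) = some ((a.1, j), σ)
    · obtain ⟨j, hj⟩ := hj
      rw [Finset.sum_eq_single j]
      · exact P.branch_abs_le n σ j a z
      · intro k _ hk
        simp only [branch]
        rw [if_neg]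
        rw [hj]
        simpa using fun h : j = k => hk h.symm
      · simp
    · simp only [not_exists] at hj
      simp [branch, hj]
  · exact Finset.sum_congr rfl fun j _ => (P.branch_inv n σ j a).2 z w h hz hw

theorem branch_split (n : ℕ) (j : Fin P.J) {a : P.Base} {z : P.Vtx} (h : P.Near a (P.proj z)) :
    P.branch n true j (P.tMove j a) z = P.weight n a z - P.branch n false j a z := by
  have hw : P.weight n (P.tMove j a) z = P.weight n a z := by
    rcases z with c | ⟨i, c, b⟩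
    · rfl
    · simp [weight, P.back_fst_eq (a := a) (a' := P.tMove j a) (c := c) (c' := c) rfl rfl]
  simp only [branch, hw, P.labWord_obs h j]
  have := dir_sides (P.labWord a (P.proj z)) ((a.1, j) : P.Lab)
  have hfst : (P.tMove j a).1 = a.1 := rfl
  rw [hfst]
  split_ifs with h1 h2 h2 <;> simp_all

end Par

end

end Vale.Agent.P090
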