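import Vale.Agent.P090.Words

/-!
The uniformly discrete metric space of the counterexample.
-/

namespace Vale.Agent.P090

open scoped Classical

noncomputable section

/-- The parameters of one component. -/
structure Par where
  /-- number of tree labels -/
  J : ℕ
  /-- length of the pins -/
  ρ : ℕ
  /-- diameter cut-off -/
  R : ℕ
  /-- modulus of the base -/
  q : ℕ
  /-- moduli of the levels -/
  p : ℕ → ℕ
  one_le_ρ : 1 ≤ ρ
  sq_le_R : ρ ^ 2 ≤ R
  hq : 4 * 3 ^ (R + 4) < q
  p_prime : ∀ i, (p i).Prime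
  p_inj : Function.Injective p
  q_lt_p : ∀ i, q < p i
  ρ_le_p : ∀ i, ρ ≤ p i

namespace Par

variable (P : Par)

instance : NeZero P.q := ⟨by have := P.hq; omega⟩

instance (i : ℕ) : NeZero (P.p i) := ⟨(P.p_prime i).ne_zero⟩

theorem ρ_le_R : P.ρ ≤ P.R :=
  le_trans (Nat.le_self_pow (by norm_num) P.ρ) P.sq_le_R

theorem one_le_R : 1 ≤ P.R := P.one_le_ρ.trans P.ρ_le_R

/-- The word radius. -/
def L : ℕ := P.R + 4

/-- Positions in the base. -/
abbrev Pos : Type := Equiv.Perm (ZMod P.q × ZMod P.q)

/-- Labels of the tree generators. -/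
abbrev Lab : Type := P.Pos × Fin P.J

/-- The tree coordinate. -/
abbrev Tree : Type := TreeGroup P.Lab P.L

/-- The base. -/
abbrev Base : Type := P.Pos × P.Tree

/-- A fibre. -/
abbrev Fib (i : ℕ) : Type := ZMod (P.p i) × ZMod (P.p i)

/-- The vertices of one component: base points and the levels over them. -/
abbrev Vtx : Type := P.Base ⊕ (Σ i : ℕ, P.Base × P.Fib i)

/-- A base point. -/
abbrev base (a : P.Base) : P.Vtx := Sum.inl a

/-- A level point. -/
abbrev lvl (i : ℕ) (a : P.Base) (b : P.Fib i) : P.Vtx := Sum.inr ⟨i, (a, b)⟩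

/-- Projection to the base. -/
def proj : P.Vtx → P.Base
  | Sum.inl a => a
  | Sum.inr x => x.2.1

/-- The holes of a level. -/
def Hole (i : ℕ) (b : P.Fib i) : Prop := b.1.val < P.p i / 2

/-- Moving a base point along an affine generator. -/
def sMove (s : Fin 4) (a : P.Base) : P.Base := (affHom (ZMod P.q) (FreeGroup.of s) * a.1, a.2)

/-- Moving a base point along a tree generator. -/
def tMove (j : Fin P.J) (a : P.Base) : P.Base :=
  (a.1, a.2 * treeHom P.Lab P.L (FreeGroup.of (a.1, j)))

/-- The short edges. -/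
def Edge (z w : P.Vtx) : Prop :=
  (∃ i a b s, z = P.lvl i a b ∧ w = P.lvl i (P.sMove s a) (affMap s b)) ∨
    (∃ i a b j, ¬ P.Hole i b ∧ z = P.lvl i a b ∧ w = P.lvl i (P.tMove j a) b)

/-- Functions which will turn out to be `c`-Lipschitz. -/
def Good (f : P.Vtx → ℝ) (c : ℝ) : Prop :=
  (∀ z, |f z| ≤ c * P.R) ∧ (∀ z w, P.Edge z w → |f z - f w| ≤ c) ∧
    ∀ i a b, |f (P.base a) - f (P.lvl i a b)| ≤ c * P.ρ

theorem good_zero {c : ℝ} (hc : 0 ≤ c) : P.Good 0 c :=
  ⟨fun z => by simpa using mul_nonneg hc (Nat.cast_nonneg P.R),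
    fun z w _ => by simpa using hc,
    fun i a b => by simpa using mul_nonneg hc (Nat.cast_nonneg P.ρ)⟩

end Par

variable (P : ℕ → Par)

/-- The points of the space. -/
def Pt : Type := Σ l : ℕ, (P l).Vtx

/-- The point of component `l` given by a vertex. -/
abbrev pt (l : ℕ) (z : (P l).Vtx) : Pt P := Sigma.mk l z

/-- Restriction to a component. -/
def restrict (f : Pt P → ℝ) (l : ℕ) : (P l).Vtx → ℝ := fun z => f (pt P l z)

/-- Extension by zero from one component. -/
def extend (l : ℕ) (f : (P l).Vtx → ℝ) (x : Pt P) : ℝ :=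
  if h : x.1 = l then f (h ▸ x.2) else 0

@[simp] theorem extend_same (l : ℕ) (f : (P l).Vtx → ℝ) (z : (P l).Vtx) :
    extend P l f (pt P l z) = f z := by
  simp [extend]

theorem extend_other {l : ℕ} (f : (P l).Vtx → ℝ) {x : Pt P} (h : x.1 ≠ l) :
    extend P l f x = 0 := by
  simp [extend, h]

/-- Admissible functions: they define the metric. -/
abbrev Adm : Type := {f : Pt P → ℝ // ∀ l, (P l).Good (restrict P f l) 1}

instance : Nonempty (Adm P) := ⟨⟨0, fun l => (P l).good_zero zero_le_one⟩⟩

/-- The distance. -/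
def pdist (x y : Pt P) : ℝ := ⨆ f : Adm P, |f.1 x - f.1 y|

theorem adm_abs_le (f : Adm P) (x : Pt P) : |f.1 x| ≤ (P x.1).R := by
  obtain ⟨l, z⟩ := x
  simpa [restrict] using (f.2 l).1 z

theorem pdist_bdd (x y : Pt P) : BddAbove (Set.range fun f : Adm P => |f.1 x - f.1 y|) := by
  refine ⟨(P x.1).R + (P y.1).R, ?_⟩
  rintro _ ⟨f, rfl⟩
  exact (abs_sub _ _).trans (add_le_add (adm_abs_le P f x) (adm_abs_le P f y))

theorem le_pdist (x y : Pt P) (f : Adm P) : |f.1 x - f.1 y| ≤ pdist P x y :=
  le_ciSup (pdist_bdd P x y) f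

theorem pdist_nonneg (x y : Pt P) : 0 ≤ pdist P x y :=
  le_trans (abs_nonneg _) (le_pdist P x y (Classical.arbitrary _))

theorem pdist_sep {x y : Pt P} (h : x ≠ y) : 1 ≤ pdist P x y := by
  have hg : ∀ l, (P l).Good (restrict P (fun z => if z = x then (1 : ℝ) else 0) l) 1 := by
    intro l
    have h01 : ∀ z, |restrict P (fun z => if z = x then (1 : ℝ) else 0) l z| ≤ 1 ∧
        0 ≤ restrict P (fun z => if z = x then (1 : ℝ) else 0) l z := fun z => by
      simp only [restrict]; split_ifs <;> simp
    have hR : (1 : ℝ) ≤ (P l).R := by exact_mod_cast (P l).one_le_R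
    have hρ : (1 : ℝ) ≤ (P l).ρ := by exact_mod_cast (P l).one_le_ρ
    refine ⟨fun z => ?_, fun z w _ => ?_, fun i a b => ?_⟩
    · linarith [(h01 z).1]
    · rw [abs_le]
      constructor <;> linarith [(h01 z).1, (h01 z).2, (h01 w).1, (h01 w).2,
        le_abs_self (restrict P (fun z => if z = x then (1 : ℝ) else 0) l z),
        le_abs_self (restrict P (fun z => if z = x then (1 : ℝ) else 0) l w)]
    · rw [abs_le]
      constructor <;> linarith [(h01 ((P l).base a)).1, (h01 ((P l).base a)).2,
        (h01 ((P l).lvl i a b)).1, (h01 ((P l).lvl i a b)).2,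
        le_abs_self (restrict P (fun z => if z = x then (1 : ℝ) else 0) l ((P l).base a)),
        le_abs_self (restrict P (fun z => if z = x then (1 : ℝ) else 0) l ((P l).lvl i a b))]
  have := le_pdist P x y ⟨_, hg⟩
  simpa [Ne.symm h] using this

instance : MetricSpace (Pt P) where
  dist := pdist P
  dist_self x := by simp [pdist]
  dist_comm x y := by simp only [pdist, abs_sub_comm]
  dist_triangle x y z := ciSup_le fun f =>
    (abs_sub_le _ (f.1 y) _).trans (add_le_add (le_pdist P x y f) (le_pdist P y z f))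
  eq_of_dist_eq_zero {x y} h := by
    by_contra hne
    have h' : pdist P x y = 0 := h
    linarith [pdist_sep P hne]

theorem dist_eq_pdist (x y : Pt P) : dist x y = pdist P x y := rfl

theorem uniformly_separated {x y : Pt P} (h : x ≠ y) : 1 ≤ dist x y := pdist_sep P h

theorem dist_le_cutoff (x y : Pt P) : dist x y ≤ (P x.1).R + (P y.1).R :=
  ciSup_le fun f => (abs_sub _ _).trans (add_le_add (adm_abs_le P f x) (adm_abs_le P f y))

theorem dist_edge_le (l : ℕ) {z w : (P l).Vtx} (h : (P l).Edge z w) :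
    dist (pt P l z) (pt P l w) ≤ 1 :=
  ciSup_le fun f => (f.2 l).2.1 z w h

theorem dist_pin_le (l i : ℕ) (a : (P l).Base) (b : (P l).Fib i) :
    dist (pt P l ((P l).base a)) (pt P l ((P l).lvl i a b)) ≤ (P l).ρ :=
  ciSup_le fun f => by simpa [restrict] using (f.2 l).2.2 i a b

theorem good_lipschitz (l : ℕ) {f : (P l).Vtx → ℝ} {c : ℝ} (hc : 0 < c) (hf : (P l).Good f c)
    (x y : Pt P) : |extend P l f x - extend P l f y| ≤ c * dist x y := by
  have hg : ∀ m, (P m).Good (restrict P (fun x => extend P l f x / c) m) 1 := by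
    intro m
    by_cases h : m = l
    · subst h
      refine ⟨fun z => ?_, fun z w hzw => ?_, fun i a b => ?_⟩
      · simp only [restrict, extend_same, abs_div, abs_of_pos hc, one_mul]
        rw [div_le_iff₀ hc, mul_comm]
        exact hf.1 z
      · simp only [restrict, extend_same, ← sub_div, abs_div, abs_of_pos hc]
        rw [div_le_iff₀ hc, one_mul]
        exact hf.2.1 z w hzw
      · simp only [restrict, extend_same, ← sub_div, abs_div, abs_of_pos hc, one_mul]
        rw [div_le_iff₀ hc, mul_comm]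
        exact hf.2.2 i a b
    · have e : restrict P (fun x => extend P l f x / c) m = 0 :=
        funext fun z => by
          simp only [restrict, Pi.zero_apply]
          rw [extend_other P f (x := pt P m z) h, zero_div]
      rw [e]
      exact (P m).good_zero zero_le_one
  have := le_pdist P x y ⟨_, hg⟩
  rw [← sub_div, abs_div, abs_of_pos hc, div_le_iff₀ hc] at this
  rw [dist_eq_pdist]
  linarith

instance : Countable (Pt P) := inferInstanceAs (Countable (Σ l : ℕ, (P l).Vtx))

end

end Vale.Agent.P090
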