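import Vale.Agent.P090.GabberGalil

/-!
Reduced words: truncated word lengths, a finite group of large girth, and local injectivity
of the reduction modulo `q` of the integral affine group.
-/

namespace Vale.Agent.P090

open scoped Classical

noncomputable section

section Length

variable {C G : Type*} [DecidableEq C] [Group G] (φ : FreeGroup C →* G) (R : ℕ)

theorem len_exists (h : G) : ∃ n, R ≤ n ∨ ∃ w, FreeGroup.norm w ≤ n ∧ φ w = h :=
  ⟨R, Or.inl le_rfl⟩

/-- Word length with respect to `φ`, truncated at `R`. -/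
def len (h : G) : ℕ := Nat.find (len_exists φ R h)

theorem len_le (h : G) : len φ R h ≤ R := Nat.find_le (Or.inl le_rfl)

theorem len_le_norm {h : G} {w : FreeGroup C} (hw : φ w = h) : len φ R h ≤ FreeGroup.norm w :=
  Nat.find_le (Or.inr ⟨w, le_rfl, hw⟩)

theorem len_one : len φ R 1 = 0 := by
  have := len_le_norm φ R (h := 1) (w := 1) (map_one φ)
  simpa using this

theorem exists_of_len_lt {h : G} (hlt : len φ R h < R) :
    ∃ w, FreeGroup.norm w ≤ len φ R h ∧ φ w = h := by
  rcases Nat.find_spec (len_exists φ R h) with h1 | h1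
  · exact absurd hlt (not_lt.mpr h1)
  · exact h1

theorem len_mul_le (x y : FreeGroup C) (h : G) :
    len φ R (φ x * h * φ y) ≤ len φ R h + FreeGroup.norm x + FreeGroup.norm y := by
  by_cases hlt : len φ R h < R
  · obtain ⟨w, hw, rfl⟩ := exists_of_len_lt φ R hlt
    refine (len_le_norm φ R (w := x * w * y) (by simp)).trans ?_
    have := FreeGroup.norm_mul_le (x * w) y
    have := FreeGroup.norm_mul_le x w
    omega
  · have := len_le φ R (φ x * h * φ y)
    omega

variable (L : ℕ)

/-- A chosen short word representing an element, if there is one. -/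
def liftWord (h : G) : FreeGroup C :=
  if hh : ∃ w, FreeGroup.norm w ≤ L ∧ φ w = h then hh.choose else 1

theorem liftWord_spec {h : G} {w : FreeGroup C} (hn : FreeGroup.norm w ≤ L) (hw : φ w = h) :
    FreeGroup.norm (liftWord φ L h) ≤ L ∧ φ (liftWord φ L h) = h := by
  have hh : ∃ w, FreeGroup.norm w ≤ L ∧ φ w = h := ⟨w, hn, hw⟩
  rw [liftWord, dif_pos hh]
  exact hh.choose_spec

end Length

section Girth

variable (C : Type) [Fintype C] [DecidableEq C] (L : ℕ)

/-- The reduced words of length at most `L`. -/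
abbrev Ball : Type := {w : FreeGroup C // FreeGroup.norm w ≤ L}

instance ballFinite : Finite (Ball C L) := by
  have h : {l : List (C × Bool) | l.length ≤ L}.Finite := List.finite_length_le _ L
  have := h.to_subtype
  exact Finite.of_injective (β := ↥({l : List (C × Bool) | l.length ≤ L}))
    (fun w : Ball C L => ⟨w.1.toWord, w.2⟩)
    (fun a b hab => Subtype.ext (FreeGroup.toWord_injective (congrArg Subtype.val hab)))

instance ballFintype : Fintype (Ball C L) := Fintype.ofFinite _

/-- The finite group used for the tree coordinate. -/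
abbrev TreeGroup : Type := Equiv.Perm (Ball C L)

/-- Left multiplication by a generator, where it stays in the ball. -/
def partialShift (c : C) :
    {x : Ball C L // FreeGroup.norm (FreeGroup.of c * x.1) ≤ L} ≃
      {y : Ball C L // FreeGroup.norm ((FreeGroup.of c)⁻¹ * y.1) ≤ L} where
  toFun x := ⟨⟨FreeGroup.of c * x.1.1, x.2⟩, by simpa using x.1.2⟩
  invFun y := ⟨⟨(FreeGroup.of c)⁻¹ * y.1.1, y.2⟩, by simpa using y.1.2⟩
  left_inv x := by ext; simp
  right_inv y := by ext; simp

/-- The homomorphism from the free group onto a group of large girth. -/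
def treeHom : FreeGroup C →* TreeGroup C L :=
  FreeGroup.lift fun c => (partialShift C L c).extendSubtype

theorem extend_shift (c : C) (x : Ball C L) (hx : FreeGroup.norm (FreeGroup.of c * x.1) ≤ L) :
    ((treeHom C L (FreeGroup.of c)) x).1 = FreeGroup.of c * x.1 := by
  rw [treeHom, FreeGroup.lift_apply_of]
  exact congrArg Subtype.val
    (Equiv.extendSubtype_apply_of_mem (partialShift C L c) x hx)

theorem treeHom_mk (l : List (C × Bool)) (hl : FreeGroup.IsReduced l) (hlen : l.length ≤ L) :
    ((treeHom C L (FreeGroup.mk l)) ⟨1, by simp⟩).1 = FreeGroup.mk l := by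
  induction l with
  | nil => simp [← FreeGroup.one_eq_mk]
  | cons a t ih =>
    have ht : FreeGroup.IsReduced t := List.IsChain.tail hl
    have htl : t.length ≤ L := by simp at hlen; omega
    have hmul : FreeGroup.mk (a :: t) = FreeGroup.mk [a] * FreeGroup.mk t := by
      rw [FreeGroup.mul_mk]; rfl
    have hn1 : FreeGroup.norm (FreeGroup.mk (a :: t)) ≤ L := by
      rw [FreeGroup.norm, FreeGroup.toWord_mk, hl.reduce_eq]; exact hlen
    have hn2 : FreeGroup.norm (FreeGroup.mk t) ≤ L := by
      rw [FreeGroup.norm, FreeGroup.toWord_mk, ht.reduce_eq]; exact htl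
    have hx : (treeHom C L (FreeGroup.mk t)) ⟨1, by simp⟩ = ⟨FreeGroup.mk t, hn2⟩ :=
      Subtype.ext (ih ht htl)
    rw [hmul, map_mul, Equiv.Perm.mul_apply, hx]
    obtain ⟨c, b⟩ := a
    cases b
    · have hinv : FreeGroup.mk [(c, false)] = (FreeGroup.of c)⁻¹ := by
        rw [FreeGroup.of, FreeGroup.inv_mk]; rfl
      rw [hinv] at hmul ⊢
      rw [map_inv]
      set y : Ball C L := ⟨(FreeGroup.of c)⁻¹ * FreeGroup.mk t, by rwa [← hmul]⟩ with hy
      have hcy : (treeHom C L (FreeGroup.of c)) y = ⟨FreeGroup.mk t, hn2⟩ := by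
        refine Subtype.ext ?_
        rw [extend_shift C L c y (by simpa [hy] using hn2)]
        simp [hy]
      rw [← hcy]
      simp [hy]
    · have hof : FreeGroup.mk [(c, true)] = FreeGroup.of c := rfl
      rw [hof] at hmul ⊢
      exact extend_shift C L c _ (by rwa [← hmul])

theorem treeHom_inj {w w' : FreeGroup C} (h : FreeGroup.norm w ≤ L) (h' : FreeGroup.norm w' ≤ L)
    (e : treeHom C L w = treeHom C L w') : w = w' := by
  have a := treeHom_mk C L w.toWord FreeGroup.isReduced_toWord h
  have b := treeHom_mk C L w'.toWord FreeGroup.isReduced_toWord h'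
  rw [FreeGroup.mk_toWord] at a b
  rw [← a, ← b, e]

end Girth

section Direction

variable {C : Type*} [DecidableEq C]

/-- The last letter of the reduced word. -/
def dir (u : FreeGroup C) : Option (C × Bool) := u.toWord.getLast?

theorem dir_one : dir (1 : FreeGroup C) = none := by simp [dir]

theorem dir_letter_mul (a : C × Bool) (u : FreeGroup C) :
    dir (FreeGroup.mk [a] * u) = dir u ∨ u = 1 ∨ FreeGroup.mk [a] * u = 1 := by
  simp only [dir]
  have h : (FreeGroup.mk [a] * u).toWord = FreeGroup.reduce (a :: u.toWord) := by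
    conv_lhs => rw [← FreeGroup.mk_toWord (x := u), FreeGroup.mul_mk, FreeGroup.toWord_mk]
    rfl
  rw [FreeGroup.reduce.cons, FreeGroup.isReduced_toWord.reduce_eq] at h
  rcases hu : u.toWord with _ | ⟨b, t⟩
  · exact Or.inr (Or.inl (FreeGroup.toWord_eq_nil_iff.mp hu))
  · rw [hu] at h
    by_cases hc : a.1 = b.1 ∧ a.2 = !b.2
    · simp only [hc, and_self, if_true] at h
      rcases t with _ | ⟨e, t⟩
      · exact Or.inr (Or.inr (FreeGroup.toWord_eq_nil_iff.mp h))
      · left; rw [h, List.getLast?_cons_cons]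
    · simp only [if_neg hc] at h
      left; rw [h, List.getLast?_cons_cons]

theorem dir_inv (v : FreeGroup C) (c : C) (b : Bool) :
    dir v⁻¹ = some (c, b) ↔ v.toWord.head? = some (c, !b) := by
  simp only [dir, FreeGroup.toWord_inv, FreeGroup.invRev, List.getLast?_reverse, List.head?_map]
  rcases v.toWord.head? with _ | ⟨d, e⟩ <;> simp

/-- Exactly one of the two sides of an edge contains a given vertex. -/
theorem dir_sides (u : FreeGroup C) (c : C) :
    dir u = some (c, false) ↔ ¬ dir (u * FreeGroup.of c) = some (c, true) := by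
  obtain ⟨v, rfl⟩ : ∃ v, u = v⁻¹ := ⟨u⁻¹, (inv_inv u).symm⟩
  have e : v⁻¹ * FreeGroup.of c = ((FreeGroup.of c)⁻¹ * v)⁻¹ := by simp
  rw [e, dir_inv, dir_inv]
  have h : ((FreeGroup.of c)⁻¹ * v).toWord = FreeGroup.reduce ((c, false) :: v.toWord) := by
    conv_lhs => rw [← FreeGroup.mk_toWord (x := v), FreeGroup.of, FreeGroup.inv_mk,
      FreeGroup.mul_mk, FreeGroup.toWord_mk]
    rfl
  rw [FreeGroup.reduce.cons, FreeGroup.isReduced_toWord.reduce_eq] at h
  have hred : FreeGroup.IsReduced v.toWord := FreeGroup.isReduced_toWord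
  rcases hv : v.toWord with _ | ⟨⟨d, e⟩, t⟩
  · rw [hv] at h; simp [h]
  · rw [hv] at h hred
    by_cases hc : c = d ∧ false = !e
    · obtain ⟨rfl, he⟩ := hc
      cases e
      · simp at he
      · simp at h
        rw [h]
        rcases t with _ | ⟨⟨d', e'⟩, t⟩
        · simp
        · simp only [List.head?_cons, Option.some.injEq, Prod.mk.injEq, Bool.not_false]
          rw [FreeGroup.isReduced_cons_cons] at hred
          constructor
          · rintro - ⟨rfl, h2⟩
            simpa [h2] using hred.1 rfl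
          · intro _; trivial
    · simp only [if_neg hc] at h
      rw [h]
      simp only [List.head?_cons, Option.some.injEq, Prod.mk.injEq, Bool.not_false, Bool.not_true,
        not_true, iff_false]
      rintro ⟨rfl, rfl⟩
      simp at hc

end Direction

section Affine

/-- The action of words in the affine generators on the plane over a ring. -/
def affHom (R : Type*) [CommRing R] : FreeGroup (Fin 4) →* Equiv.Perm (R × R) :=
  FreeGroup.lift (affPerm R)

theorem affHom_map {R S : Type*} [CommRing R] [CommRing S] (f : R →+* S) (w : FreeGroup (Fin 4))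
    (v : R × R) : Prod.map f f (affHom R w v) = affHom S w (Prod.map f f v) := by
  induction w using FreeGroup.induction_on generalizing v with
  | C1 => simp
  | of s => simp only [affHom, FreeGroup.lift_apply_of, affPerm_apply]; exact affMap_ringHom f s v
  | inv_of s ih =>
    rw [map_inv, map_inv]
    apply (affHom S (FreeGroup.of s)).injective
    rw [← ih]
    simp
  | mul x y hx hy => simp [Equiv.Perm.mul_apply, hx, hy]

theorem affHom_affine (w : FreeGroup (Fin 4)) (u v : ℤ × ℤ) :
    affHom ℤ w (u + v) + affHom ℤ w 0 = affHom ℤ w u + affHom ℤ w v := by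
  induction w using FreeGroup.induction_on generalizing u v with
  | C1 => simp
  | of s =>
    simp only [affHom, FreeGroup.lift_apply_of, affPerm_apply]
    fin_cases s <;> ext <;> simp [affMap] <;> ring
  | inv_of s ih =>
    rw [map_inv]
    set g := affHom ℤ (FreeGroup.of s)
    apply g.injective
    have a1 := ih (g⁻¹ (u + v)) (g⁻¹ 0)
    have a2 := ih (g⁻¹ u) (g⁻¹ v)
    simp only [Equiv.Perm.inv_def, Equiv.apply_symm_apply, add_zero] at a1 a2 ⊢
    exact add_right_cancel (a1.trans a2.symm)
  | mul x y hx hy =>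
    simp only [map_mul, Equiv.Perm.mul_apply]
    have h := hy u v
    have a1 := hx (affHom ℤ y (u + v)) (affHom ℤ y 0)
    have a2 := hx (affHom ℤ y u) (affHom ℤ y v)
    rw [h] at a1
    exact a1.symm.trans a2

theorem affHom_ext {w w' : FreeGroup (Fin 4)} (h0 : affHom ℤ w 0 = affHom ℤ w' 0)
    (h1 : affHom ℤ w (1, 0) = affHom ℤ w' (1, 0)) (h2 : affHom ℤ w (0, 1) = affHom ℤ w' (0, 1)) :
    affHom ℤ w = affHom ℤ w' := by
  have hadd : ∀ w : FreeGroup (Fin 4), ∀ u v : ℤ × ℤ, affHom ℤ w (u + v) - affHom ℤ w 0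
      = (affHom ℤ w u - affHom ℤ w 0) + (affHom ℤ w v - affHom ℤ w 0) := fun w u v => by
    rw [eq_sub_of_add_eq (affHom_affine w u v)]
    abel
  let D : FreeGroup (Fin 4) → (ℤ × ℤ) →+ (ℤ × ℤ) := fun w =>
    AddMonoidHom.mk' (fun v => affHom ℤ w v - affHom ℤ w 0) (hadd w)
  refine Equiv.ext fun v => ?_
  have hv : v = v.1 • ((1, 0) : ℤ × ℤ) + v.2 • ((0, 1) : ℤ × ℤ) := by ext <;> simp
  have e : D w v = D w' v := by
    rw [hv, map_add, map_add, map_zsmul, map_zsmul, map_zsmul, map_zsmul]
    simp [D, h0, h1, h2]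
  simpa [D, h0] using e

/-- The size used to bound integral orbits. -/
def size (v : ℤ × ℤ) : ℤ := |v.1| + |v.2| + 1

theorem affHom_size (w : FreeGroup (Fin 4)) (v : ℤ × ℤ) :
    size (affHom ℤ w v) ≤ 3 ^ FreeGroup.norm w * size v := by
  rw [FreeGroup.norm, ← FreeGroup.mk_toWord (x := w)]
  rw [FreeGroup.mk_toWord (x := w)]
  suffices H : ∀ l : List (Fin 4 × Bool), size (affHom ℤ (FreeGroup.mk l) v) ≤ 3 ^ l.length * size v by
    have := H w.toWord
    rwa [FreeGroup.mk_toWord] at this
  intro l
  induction l with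
  | nil => simp [← FreeGroup.one_eq_mk]
  | cons a t ih =>
    have hmul : FreeGroup.mk (a :: t) = FreeGroup.mk [a] * FreeGroup.mk t := by
      rw [FreeGroup.mul_mk]; rfl
    rw [hmul, map_mul, Equiv.Perm.mul_apply, List.length_cons, pow_succ]
    set y := affHom ℤ (FreeGroup.mk t) v
    have hstep : size (affHom ℤ (FreeGroup.mk [a]) y) ≤ 3 * size y := by
      obtain ⟨s, b⟩ := a
      cases b
      · have hinv : FreeGroup.mk [(s, false)] = (FreeGroup.of s)⁻¹ := by
          rw [FreeGroup.of, FreeGroup.inv_mk]; rfl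
        rw [hinv, map_inv, affHom, FreeGroup.lift_apply_of]
        rw [Equiv.Perm.inv_def]
        simp only [affPerm, Equiv.coe_fn_symm_mk, size, Int.abs_eq_natAbs]
        fin_cases s <;> simp [affInv] <;> simp only [Int.abs_eq_natAbs] <;> omega
      · have hof : FreeGroup.mk [(s, true)] = FreeGroup.of s := rfl
        rw [hof, affHom, FreeGroup.lift_apply_of]
        simp only [affPerm, Equiv.coe_fn_mk, size, Int.abs_eq_natAbs]
        fin_cases s <;> simp [affMap] <;> simp only [Int.abs_eq_natAbs] <;> omega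
    calc _ ≤ 3 * size y := hstep
      _ ≤ 3 * (3 ^ t.length * size v) := by linarith
      _ = _ := by ring

/-- Words that agree modulo a large `q` agree over every `ZMod p`. -/
theorem affHom_local {q L : ℕ} (hq : 4 * 3 ^ L < q) {w w' : FreeGroup (Fin 4)}
    (hw : FreeGroup.norm w ≤ L) (hw' : FreeGroup.norm w' ≤ L)
    (e : affHom (ZMod q) w = affHom (ZMod q) w') (p : ℕ) :
    affHom (ZMod p) w = affHom (ZMod p) w' := by
  have key : ∀ v : ℤ × ℤ, size v ≤ 2 → affHom ℤ w v = affHom ℤ w' v := by
    intro v hv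
    have hb : ∀ u : FreeGroup (Fin 4), FreeGroup.norm u ≤ L →
        size (affHom ℤ u v) ≤ 2 * 3 ^ L := by
      intro u hu
      have h3 : (3 : ℤ) ^ FreeGroup.norm u ≤ 3 ^ L := pow_le_pow_right₀ (by norm_num) hu
      have hs : (0 : ℤ) ≤ size v := by unfold size; positivity
      have hp : (0 : ℤ) ≤ (3 : ℤ) ^ L := by positivity
      have := affHom_size u v
      nlinarith [mul_le_mul_of_nonneg_right h3 hs]
    have b1 := hb w hw
    have b2 := hb w' hw'
    have hq' : (4 : ℤ) * 3 ^ L < (q : ℤ) := by exact_mod_cast hq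
    have m1 := affHom_map (Int.castRingHom (ZMod q)) w v
    have m2 := affHom_map (Int.castRingHom (ZMod q)) w' v
    rw [e, ← m2] at m1
    simp only [Prod.map, Prod.mk.injEq, Int.coe_castRingHom, ZMod.intCast_eq_intCast_iff_dvd_sub] at m1
    simp only [size, Int.abs_eq_natAbs] at b1 b2
    have z1 := Int.eq_zero_of_dvd_of_natAbs_lt_natAbs m1.1 (by omega)
    have z2 := Int.eq_zero_of_dvd_of_natAbs_lt_natAbs m1.2 (by omega)
    ext <;> omega
  have hz : affHom ℤ w = affHom ℤ w' :=
    affHom_ext (key 0 (by simp [size])) (key (1, 0) (by simp [size])) (key (0, 1) (by simp [size]))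
  refine Equiv.ext fun x => ?_
  obtain ⟨a, ha⟩ := ZMod.intCast_surjective x.1
  obtain ⟨b, hb⟩ := ZMod.intCast_surjective x.2
  have hx : x = Prod.map (Int.castRingHom (ZMod p)) (Int.castRingHom (ZMod p)) (a, b) := by
    simp [Prod.map, ha, hb]
  rw [hx, ← affHom_map, ← affHom_map, hz]

end Affine

end

end Vale.Agent.P090
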